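import Mathlib

open Finset BigOperators

namespace Vale.Agent.Lib.P047

/-- real value of a sign -/
noncomputable def sg (u : ℤˣ) : ℝ := ((u : ℤ) : ℝ)

@[simp] lemma sg_one : sg 1 = 1 := by simp [sg]
@[simp] lemma sg_neg_one : sg (-1) = -1 := by simp [sg]
lemma sg_mul (u v : ℤˣ) : sg (u * v) = sg u * sg v := by simp [sg]
lemma sg_sq (u : ℤˣ) : sg u * sg u = 1 := by
  rcases Int.units_eq_one_or u with h | h <;> simp [h]

lemma sum_units (h : ℤˣ → ℝ) : ∑ s : ℤˣ, h s = h 1 + h (-1) := by
  have : (Finset.univ : Finset ℤˣ) = {1, -1} := by decide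
  rw [this, Finset.sum_pair (by decide)]

section
variable {ι : Type} [Fintype ι] [DecidableEq ι]

/-- normalized sum (expectation) over the cube -/
noncomputable def avg (F : (ι → ℤˣ) → ℝ) : ℝ := (∑ x, F x) / 2 ^ Fintype.card ι

/-- character -/
noncomputable def chi (S : Finset ι) (x : ι → ℤˣ) : ℝ := ∏ i, (if i ∈ S then sg (x i) else 1)

/-- Fourier coefficient -/
noncomputable def fc (f : (ι → ℤˣ) → ℤˣ) (S : Finset ι) : ℝ := avg (fun x => sg (f x) * chi S x)

lemma avg_prod (g : ι → ℤˣ → ℝ) :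
    avg (fun x : ι → ℤˣ => ∏ i, g i (x i)) = ∏ i, ((g i 1 + g i (-1)) / 2) := by
  unfold avg
  have h := (Finset.prod_univ_sum (fun _ : ι => (Finset.univ : Finset ℤˣ)) g).symm
  rw [Fintype.piFinset_univ] at h
  rw [h, Finset.prod_div_distrib]
  congr 1
  · exact Finset.prod_congr rfl (fun i _ => sum_units _)
  · simp

lemma avg_sum {α : Type} (s : Finset α) (F : α → (ι → ℤˣ) → ℝ) :
    avg (fun x => ∑ a ∈ s, F a x) = ∑ a ∈ s, avg (F a) := by
  unfold avg
  rw [Finset.sum_comm, Finset.sum_div]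

lemma avg_mul_left (c : ℝ) (F : (ι → ℤˣ) → ℝ) : avg (fun x => c * F x) = c * avg F := by
  unfold avg
  rw [← Finset.mul_sum, mul_div_assoc]

end

section comp
variable {ι κ : Type} [Fintype ι] [DecidableEq ι] [Fintype κ] [DecidableEq κ]

/-- independence of the blocks -/
lemma avg_blocks (Φ : ι → (κ → ℤˣ) → ℝ) :
    avg (fun z : ι × κ → ℤˣ => ∏ i, Φ i (fun k => z (i, k))) = ∏ i, avg (Φ i) := by
  unfold avg
  rw [Finset.prod_div_distrib]
  congr 1
  · have h := (Finset.prod_univ_sum (fun _ : ι => (Finset.univ : Finset (κ → ℤˣ))) Φ)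
    rw [Fintype.piFinset_univ] at h
    rw [h]
    exact Fintype.sum_equiv (Equiv.curry ι κ ℤˣ) _ _ (fun z => rfl)
  · rw [Finset.prod_const, Fintype.card_prod, Finset.card_univ, ← pow_mul, mul_comm]

/-- block composition -/
def comp (f : (ι → ℤˣ) → ℤˣ) (g : (κ → ℤˣ) → ℤˣ) : (ι × κ → ℤˣ) → ℤˣ :=
  fun z => f (fun i => g (fun k => z (i, k)))

/-- the part of `U` in block `i` -/
def slice (U : Finset (ι × κ)) (i : ι) : Finset κ := Finset.univ.filter (fun k => (i, k) ∈ U)

/-- the blocks met by `U` -/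
def supp (U : Finset (ι × κ)) : Finset ι := Finset.univ.filter (fun i => slice U i ≠ ∅)

lemma chi_blocks (U : Finset (ι × κ)) (z : ι × κ → ℤˣ) :
    chi U z = ∏ i, chi (slice U i) (fun k => z (i, k)) := by
  unfold chi
  rw [Fintype.prod_prod_type]
  apply Finset.prod_congr rfl
  intro i _
  apply Finset.prod_congr rfl
  intro k _
  simp [slice]

end comp

section
variable {ι : Type} [Fintype ι] [DecidableEq ι]

omit [DecidableEq ι] in
lemma delta_prod (y y0 : ι → ℤˣ) :
    ∏ i, ((1 + sg (y i) * sg (y0 i)) / 2) = if y = y0 then 1 else 0 := by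
  split_ifs with h
  · subst h
    apply Finset.prod_eq_one
    intro i _
    rw [sg_sq]; norm_num
  · have : ∃ i, y i ≠ y0 i := by
      by_contra hcon
      apply h
      funext i
      by_contra hi
      exact hcon ⟨i, hi⟩
    obtain ⟨i, hi⟩ := this
    apply Finset.prod_eq_zero (Finset.mem_univ i)
    rcases Int.units_eq_one_or (y i) with h1 | h1 <;> rcases Int.units_eq_one_or (y0 i) with h2 | h2
    · exact absurd (h1.trans h2.symm) hi
    · simp [h1, h2]
    · simp [h1, h2]
    · exact absurd (h1.trans h2.symm) hi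

lemma point_expand (f : (ι → ℤˣ) → ℤˣ) (y0 : ι → ℤˣ) :
    sg (f y0) = ∑ y, sg (f y) * ∏ i, ((1 + sg (y i) * sg (y0 i)) / 2) := by
  simp_rw [delta_prod]
  simp

lemma avg_chi (T : Finset ι) : avg (chi T) = if T = ∅ then 1 else 0 := by
  have h := avg_prod (fun (i : ι) (s : ℤˣ) => if i ∈ T then sg s else 1)
  unfold chi
  rw [h]
  split_ifs with hT
  · subst hT
    simp
  · obtain ⟨i, hi⟩ := Finset.nonempty_iff_ne_empty.2 hT
    apply Finset.prod_eq_zero (Finset.mem_univ i)
    simp [hi]

end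

section comp2
variable {ι κ : Type} [Fintype ι] [DecidableEq ι] [Fintype κ] [DecidableEq κ]

lemma avg_half (g : (κ → ℤˣ) → ℤˣ) (T : Finset κ) (c : ℝ) :
    avg (fun w : κ → ℤˣ => ((1 + c * sg (g w)) / 2) * chi T w)
      = ((if T = ∅ then 1 else 0) + c * fc g T) / 2 := by
  have h1 : (fun w : κ → ℤˣ => ((1 + c * sg (g w)) / 2) * chi T w)
      = fun w => ∑ a ∈ (Finset.univ : Finset (Fin 2)),
          (if a = 0 then (1/2) * chi T w else (c/2) * (sg (g w) * chi T w)) := by
    funext w
    rw [Fin.sum_univ_two]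
    simp
    ring
  rw [h1, avg_sum, Fin.sum_univ_two]
  simp only [if_true, Fin.isValue, one_ne_zero, if_false]
  rw [avg_mul_left, avg_mul_left, avg_chi]
  unfold fc
  ring

lemma fc_comp (f : (ι → ℤˣ) → ℤˣ) (g : (κ → ℤˣ) → ℤˣ) (hg : fc g ∅ = 0) (U : Finset (ι × κ)) :
    fc (comp f g) U = fc f (supp U) * ∏ i ∈ supp U, fc g (slice U i) := by
  have h1 : (fun z : ι × κ → ℤˣ => sg (comp f g z) * chi U z)
      = fun z => ∑ y ∈ (Finset.univ : Finset (ι → ℤˣ)), sg (f y) *
          ∏ i, (((1 + sg (y i) * sg (g (fun k => z (i, k)))) / 2) * chi (slice U i) (fun k => z (i, k))) := by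
    funext z
    unfold comp
    rw [point_expand f, chi_blocks, Finset.sum_mul]
    apply Finset.sum_congr rfl
    intro y _
    rw [Finset.prod_mul_distrib]
    ring
  unfold fc at *
  rw [h1, avg_sum]
  have h2 : ∀ y : ι → ℤˣ, avg (fun z : ι × κ → ℤˣ => sg (f y) *
          ∏ i, (((1 + sg (y i) * sg (g (fun k => z (i, k)))) / 2) * chi (slice U i) (fun k => z (i, k))))
      = (sg (f y) * chi (supp U) y) / 2 ^ Fintype.card ι
          * ∏ i ∈ supp U, avg (fun x => sg (g x) * chi (slice U i) x) := by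
    intro y
    rw [avg_mul_left]
    rw [avg_blocks (fun i w => ((1 + sg (y i) * sg (g w)) / 2) * chi (slice U i) w)]
    have h3 : ∀ i : ι, avg (fun w : κ → ℤˣ => ((1 + sg (y i) * sg (g w)) / 2) * chi (slice U i) w)
        = (1/2) * ((if i ∈ supp U then sg (y i) else 1) *
            (if i ∈ supp U then avg (fun x => sg (g x) * chi (slice U i) x) else 1)) := by
      intro i
      rw [avg_half]
      by_cases hi : slice U i = ∅
      · have : i ∉ supp U := by simp [supp, hi]
        rw [hi]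
        unfold fc
        rw [hg]
        simp [this]
      · have : i ∈ supp U := by simp [supp, hi]
        unfold fc
        simp [this, hi]
        ring
    have e1 : ∏ i, (if i ∈ supp U then avg (fun x => sg (g x) * chi (slice U i) x) else 1)
        = ∏ i ∈ supp U, avg (fun x => sg (g x) * chi (slice U i) x) := by
      rw [Finset.prod_ite_mem, Finset.univ_inter]
    have e2 : ∏ i, (if i ∈ supp U then sg (y i) else 1) = chi (supp U) y := rfl
    rw [Finset.prod_congr rfl (fun i _ => h3 i), Finset.prod_mul_distrib, Finset.prod_mul_distrib,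
      Finset.prod_const, Finset.card_univ, e1, e2]
    rw [one_div, inv_pow]
    ring
  rw [Finset.sum_congr rfl (fun y _ => h2 y), ← Finset.sum_mul]
  unfold avg
  rw [Finset.sum_div]

lemma card_slices (U : Finset (ι × κ)) : U.card = ∑ i, (slice U i).card := by
  have h1 : U = Finset.univ.filter (fun p => p ∈ U) := by simp
  conv_lhs => rw [h1]
  rw [Finset.card_filter, Fintype.sum_prod_type]
  apply Finset.sum_congr rfl
  intro i _
  unfold slice
  rw [Finset.card_filter]

lemma deg_comp (f : (ι → ℤˣ) → ℤˣ) (g : (κ → ℤˣ) → ℤˣ) (hg : fc g ∅ = 0) (a b : ℕ)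
    (hf : ∀ S, a < S.card → fc f S = 0) (hgd : ∀ T, b < T.card → fc g T = 0)
    (U : Finset (ι × κ)) (hU : a * b < U.card) : fc (comp f g) U = 0 := by
  rw [fc_comp f g hg]
  by_cases h : a < (supp U).card
  · rw [hf _ h, zero_mul]
  · have hex : ∃ i ∈ supp U, b < (slice U i).card := by
      by_contra hcon
      have hle : ∀ i ∈ supp U, (slice U i).card ≤ b := by
        intro i hi
        by_contra h2
        exact hcon ⟨i, hi, not_le.1 h2⟩
      have h3 : U.card = ∑ i ∈ supp U, (slice U i).card := by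
        rw [card_slices]
        symm
        apply Finset.sum_subset (Finset.subset_univ _)
        intro i _ hi
        have : slice U i = ∅ := by
          by_contra h4
          apply hi
          simp [supp, h4]
        rw [this, Finset.card_empty]
      have h4 : ∑ i ∈ supp U, (slice U i).card ≤ (supp U).card * b := by
        have := Finset.sum_le_card_nsmul (supp U) (fun i => (slice U i).card) b hle
        simpa using this
      have h5 : (supp U).card * b ≤ a * b := Nat.mul_le_mul_right b (not_lt.1 h)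
      omega
    obtain ⟨i, hi, hb⟩ := hex
    rw [Finset.prod_eq_zero hi (hgd _ hb), mul_zero]

lemma mean_comp (f : (ι → ℤˣ) → ℤˣ) (g : (κ → ℤˣ) → ℤˣ) (hg : fc g ∅ = 0) :
    fc (comp f g) ∅ = fc f ∅ := by
  rw [fc_comp f g hg]
  have : supp (∅ : Finset (ι × κ)) = ∅ := by simp [supp, slice]
  rw [this]
  simp

lemma level_one_comp (f : (ι → ℤˣ) → ℤˣ) (g : (κ → ℤˣ) → ℤˣ) (hg : fc g ∅ = 0) :
    ∑ p : ι × κ, fc (comp f g) {p} = (∑ i, fc f {i}) * (∑ k, fc g {k}) := by
  rw [Fintype.sum_prod_type, Finset.sum_mul_sum]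
  apply Finset.sum_congr rfl
  intro i _
  apply Finset.sum_congr rfl
  intro k _
  rw [fc_comp f g hg]
  have h1 : ∀ j, slice ({(i, k)} : Finset (ι × κ)) j = if j = i then {k} else ∅ := by
    intro j
    ext k'
    by_cases hj : j = i
    · subst hj; simp [slice]
    · simp [slice, hj]
  have h2 : supp ({(i, k)} : Finset (ι × κ)) = {i} := by
    ext j
    simp only [supp, Finset.mem_filter, Finset.mem_univ, true_and, Finset.mem_singleton, h1]
    by_cases hj : j = i <;> simp [hj]
  rw [h2, Finset.prod_singleton, h1]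
  simp

end comp2

section odd
variable {ι : Type} [Fintype ι] [DecidableEq ι]

/-- the odd function `(s, x) ↦ (e s) f((e s) x)` on one more variable -/
def oddize (e : ℤˣ) (f : (ι → ℤˣ) → ℤˣ) : (Option ι → ℤˣ) → ℤˣ :=
  fun z => (e * z none) * f (fun i => (e * z none) * z (some i))

/-- the part of `U` away from the new variable -/
def strip (U : Finset (Option ι)) : Finset ι := Finset.univ.filter (fun i => some i ∈ U)

lemma avg_option (H : ℤˣ → (ι → ℤˣ) → ℝ) :
    avg (fun z : Option ι → ℤˣ => H (z none) (fun i => z (some i)))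
      = (avg (H 1) + avg (H (-1))) / 2 := by
  unfold avg
  have h1 : ∑ z : Option ι → ℤˣ, H (z none) (fun i => z (some i))
      = ∑ p : ℤˣ × (ι → ℤˣ), H p.1 p.2 :=
    Fintype.sum_equiv (Equiv.piOptionEquivProd (β := fun _ : Option ι => ℤˣ)) _ _ (fun z => rfl)
  rw [h1, Fintype.sum_prod_type, sum_units, Fintype.card_option, pow_succ]
  field_simp

lemma avg_smul (c : ℤˣ) (F : (ι → ℤˣ) → ℝ) :
    avg (fun x => F (fun i => c * x i)) = avg F := by
  unfold avg
  congr 1
  exact Fintype.sum_equiv (Equiv.piCongrRight (fun _ : ι => Equiv.mulLeft c)) _ _ (fun x => rfl)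

lemma chi_smul (c : ℤˣ) (S : Finset ι) (y : ι → ℤˣ) :
    chi S (fun i => c * y i) = sg c ^ S.card * chi S y := by
  unfold chi
  have : ∀ i, (if i ∈ S then sg (c * y i) else 1)
      = (if i ∈ S then sg c else 1) * (if i ∈ S then sg (y i) else 1) := by
    intro i
    split_ifs
    · exact sg_mul _ _
    · simp
  rw [Finset.prod_congr rfl (fun i _ => this i), Finset.prod_mul_distrib, Finset.prod_ite_mem,
    Finset.univ_inter, Finset.prod_const]

lemma units_mul_self (c : ℤˣ) : c * c = 1 := by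
  rcases Int.units_eq_one_or c with h | h <;> simp [h]

lemma avg_twist (c : ℤˣ) (f : (ι → ℤˣ) → ℤˣ) (S : Finset ι) :
    avg (fun x => sg (f (fun i => c * x i)) * chi S x) = sg c ^ S.card * fc f S := by
  have h := avg_smul c (fun y => sg (f y) * chi S (fun i => c * y i))
  have h2 : (fun x : ι → ℤˣ => sg (f (fun i => c * x i)) * chi S (fun i => c * (c * x i)))
      = fun x => sg (f (fun i => c * x i)) * chi S x := by
    funext x
    have : (fun i => c * (c * x i)) = x := by
      funext i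
      rw [← mul_assoc, units_mul_self, one_mul]
    rw [this]
  rw [h2] at h
  rw [h]
  simp_rw [chi_smul]
  unfold fc
  rw [← avg_mul_left]
  congr 1
  funext x
  ring

lemma fc_oddize (e : ℤˣ) (f : (ι → ℤˣ) → ℤˣ) (U : Finset (Option ι)) :
    fc (oddize e f) U
      = (sg e ^ ((strip U).card + 1) * (1 + (-1) ^ ((strip U).card + 1) * (if none ∈ U then -1 else 1)) / 2)
          * fc f (strip U) := by
  have h1 : (fun z : Option ι → ℤˣ => sg (oddize e f z) * chi U z)
      = fun z => (fun (s : ℤˣ) (x : ι → ℤˣ) => (sg (e * s) * (if none ∈ U then sg s else 1)) *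
          (sg (f (fun i => (e * s) * x i)) * chi (strip U) x)) (z none) (fun i => z (some i)) := by
    funext z
    unfold oddize chi
    rw [Fintype.prod_option, sg_mul]
    have : ∀ i : ι, (if some i ∈ U then sg (z (some i)) else 1)
        = (if i ∈ strip U then sg (z (some i)) else 1) := by
      intro i
      simp [strip]
    rw [Finset.prod_congr rfl (fun i _ => this i)]
    ring
  unfold fc
  rw [h1]
  refine (avg_option (fun (s : ℤˣ) (x : ι → ℤˣ) => (sg (e * s) * (if none ∈ U then sg s else 1)) *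
          (sg (f (fun i => (e * s) * x i)) * chi (strip U) x))).trans ?_
  rw [avg_mul_left, avg_mul_left, avg_twist, avg_twist]
  unfold fc
  have e1 : sg (e * 1) = sg e := by simp
  have e2 : sg (e * -1) = - sg e := by rw [sg_mul]; simp
  rw [e1, e2]
  by_cases hU : none ∈ U
  · simp only [hU, if_true, sg_one, sg_neg_one]
    rw [neg_pow (sg e)]
    ring
  · simp only [hU, if_false]
    rw [neg_pow (sg e)]
    ring

lemma card_strip (U : Finset (Option ι)) :
    U.card = (strip U).card + (if none ∈ U then 1 else 0) := by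
  have h1 : U = Finset.univ.filter (fun p => p ∈ U) := by simp
  conv_lhs => rw [h1]
  rw [Finset.card_filter, Fintype.sum_option]
  unfold strip
  rw [Finset.card_filter, add_comm]

lemma mean_oddize (e : ℤˣ) (f : (ι → ℤˣ) → ℤˣ) : fc (oddize e f) ∅ = 0 := by
  rw [fc_oddize]
  have : strip (∅ : Finset (Option ι)) = ∅ := by simp [strip]
  rw [this]
  simp

lemma deg_oddize (e : ℤˣ) (f : (ι → ℤˣ) → ℤˣ) (d : ℕ) (hd : Odd d)
    (hf : ∀ S, d < S.card → fc f S = 0) (U : Finset (Option ι)) (hU : d < U.card) :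
    fc (oddize e f) U = 0 := by
  rw [fc_oddize]
  have hc := card_strip U
  by_cases hS : d < (strip U).card
  · rw [hf _ hS, mul_zero]
  · -- then none ∈ U and card (strip U) = d
    by_cases hn : none ∈ U
    · simp only [hn, if_true] at hc
      have hm : (strip U).card = d := by omega
      rw [hm]
      have : Even (d + 1) := hd.add_one
      rw [this.neg_one_pow]
      simp [hn]
    · simp only [hn, if_false] at hc
      omega

lemma level_one_oddize (e : ℤˣ) (f : (ι → ℤˣ) → ℤˣ) :
    ∑ o : Option ι, fc (oddize e f) {o} = sg e * fc f ∅ + ∑ i, fc f {i} := by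
  rw [Fintype.sum_option]
  congr 1
  · rw [fc_oddize]
    have : strip ({none} : Finset (Option ι)) = ∅ := by simp [strip]
    rw [this]
    simp only [Finset.card_empty, zero_add, pow_one, Finset.mem_singleton, if_true]
    ring
  · apply Finset.sum_congr rfl
    intro i _
    rw [fc_oddize]
    have : strip ({some i} : Finset (Option ι)) = {i} := by
      ext j
      simp [strip]
    rw [this]
    have h2 : sg e ^ 2 = 1 := by rw [sq]; exact sg_sq e
    simp [h2]

end odd

section iter

lemma base_case : ∃ (G : (Unit → ℤˣ) → ℤˣ), fc G ∅ = 0 ∧ (∀ T : Finset Unit, 1 < T.card → fc G T = 0) ∧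
    ∑ t, fc G {t} = 1 := by
  refine ⟨fun x => x (), ?_, ?_, ?_⟩
  · have h := avg_prod (ι := Unit) (fun _ s => sg s)
    unfold fc chi
    simpa using h
  · intro T hT
    have : T.card ≤ 1 := by
      have := Finset.card_le_univ T
      simpa using this
    omega
  · have h := avg_prod (ι := Unit) (fun _ s => sg s * sg s)
    unfold fc chi
    simpa using h

lemma iterate {κ : Type} [Fintype κ] [DecidableEq κ] (g : (κ → ℤˣ) → ℤˣ) (d : ℕ)
    (hg0 : fc g ∅ = 0) (hgd : ∀ T, d < T.card → fc g T = 0) (k : ℕ) :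
    ∃ (τ : Type) (_ : Fintype τ) (_ : DecidableEq τ) (G : (τ → ℤˣ) → ℤˣ),
      fc G ∅ = 0 ∧ (∀ T, d ^ k < T.card → fc G T = 0) ∧ ∑ t, fc G {t} = (∑ j, fc g {j}) ^ k := by
  induction k with
  | zero =>
    obtain ⟨G, h1, h2, h3⟩ := base_case
    exact ⟨Unit, inferInstance, inferInstance, G, h1, by simpa using h2, by simpa using h3⟩
  | succ k ih =>
    obtain ⟨τ, i1, i2, G, h1, h2, h3⟩ := ih
    refine ⟨τ × κ, inferInstance, inferInstance, comp G g, ?_, ?_, ?_⟩
    · rw [mean_comp G g hg0, h1]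
    · intro T hT
      rw [pow_succ] at hT
      exact deg_comp G g hg0 (d ^ k) d h2 hgd T hT
    · rw [level_one_comp G g hg0, h3, pow_succ]

end iter

section reindex
variable {τ σ : Type} [Fintype τ] [DecidableEq τ] [Fintype σ] [DecidableEq σ]

lemma fc_reindex (e : τ ≃ σ) (G : (τ → ℤˣ) → ℤˣ) (S : Finset σ) :
    fc (fun x : σ → ℤˣ => G (fun t => x (e t))) S = fc G (S.map e.symm.toEmbedding) := by
  unfold fc avg
  rw [Fintype.card_congr e]
  congr 1
  apply Fintype.sum_equiv (Equiv.arrowCongr e.symm (Equiv.refl ℤˣ))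
  intro x
  have h1 : (Equiv.arrowCongr e.symm (Equiv.refl ℤˣ)) x = fun t => x (e t) := by
    funext t
    simp [Equiv.arrowCongr]
  rw [h1]
  congr 1
  unfold chi
  symm
  apply Fintype.prod_equiv e
  intro t
  simp [Finset.mem_map_equiv]

end reindex

lemma fc_fin {n : ℕ} (f : (Fin n → ℤˣ) → ℤˣ) (S : Finset (Fin n)) :
    fc f S = (∑ x, ((f x : ℤ) : ℝ) * ∏ i ∈ S, ((x i : ℤ) : ℝ)) / 2 ^ n := by
  unfold fc avg chi sg
  rw [Fintype.card_fin]
  congr 1
  apply Finset.sum_congr rfl
  intro x _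
  show ((f x : ℤ) : ℝ) * (∏ i, if i ∈ S then ((x i : ℤ) : ℝ) else 1) = _
  rw [Finset.prod_ite_mem, Finset.univ_inter]

lemma fc_fin_single {n : ℕ} (f : (Fin n → ℤˣ) → ℤˣ) (i : Fin n) :
    fc f {i} = (∑ x, ((f x : ℤ) : ℝ) * ((x i : ℤ) : ℝ)) / 2 ^ n := by
  rw [fc_fin]
  simp

lemma fc_fin_empty {n : ℕ} (f : (Fin n → ℤˣ) → ℤˣ) :
    fc f ∅ = (∑ x, ((f x : ℤ) : ℝ)) / 2 ^ n := by
  rw [fc_fin]
  simp

lemma amplify (n d : ℕ) (hd : Odd d) (f : (Fin n → ℤˣ) → ℤˣ)
    (hdeg : ∀ S, d < S.card → fc f S = 0) (k : ℕ) :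
    ∃ (N : ℕ) (F : (Fin N → ℤˣ) → ℤˣ), (∀ S, d ^ k < S.card → fc F S = 0) ∧
      ∑ i, fc F {i} = (∑ i, fc f {i} + |fc f ∅|) ^ k := by
  obtain ⟨e, he⟩ : ∃ e : ℤˣ, sg e * fc f ∅ = |fc f ∅| := by
    rcases le_total 0 (fc f ∅) with h | h
    · exact ⟨1, by rw [abs_of_nonneg h]; simp⟩
    · exact ⟨-1, by rw [abs_of_nonpos h]; simp⟩
  obtain ⟨τ, i1, i2, G, _, h2, h3⟩ := iterate (oddize e f) d (mean_oddize e f)
    (deg_oddize e f d hd hdeg) k
  let eqv := Fintype.equivFin τ
  refine ⟨Fintype.card τ, fun x => G (fun t => x (eqv t)), ?_, ?_⟩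
  · intro S hS
    rw [fc_reindex eqv G S]
    apply h2
    rwa [Finset.card_map]
  · rw [level_one_oddize, he] at h3
    rw [add_comm, ← h3]
    apply Fintype.sum_equiv eqv.symm
    intro i
    rw [fc_reindex eqv G {i}]
    simp

end Vale.Agent.Lib.P047
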