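import Mathlib
import Vale.Agent.Lib.P047.Fourier

open Finset BigOperators

namespace Vale.Agent.Lib.P047

section
variable {ι : Type} [Fintype ι] [DecidableEq ι]

/-- the odd version raises the degree bound by at most one -/
lemma deg_oddize_succ (e : ℤˣ) (f : (ι → ℤˣ) → ℤˣ) (D : ℕ)
    (hf : ∀ S, D < S.card → fc f S = 0) (U : Finset (Option ι)) (hU : D + 1 < U.card) :
    fc (oddize e f) U = 0 := by
  rw [fc_oddize]
  have hc := card_strip U
  have hS : D < (strip U).card := by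
    by_cases hn : none ∈ U
    · simp only [hn, if_true] at hc
      omega
    · simp only [hn, if_false] at hc
      omega
  rw [hf _ hS, mul_zero]

end

/-- iterating `G ↦ oddize (comp f G)` -/
lemma iterate2 {ι : Type} [Fintype ι] [DecidableEq ι] (f : (ι → ℤˣ) → ℤˣ) (d : ℕ) (hd : 1 ≤ d)
    (hfd : ∀ T, d < T.card → fc f T = 0) (hL : 0 ≤ ∑ i, fc f {i}) (k : ℕ) :
    ∃ (τ : Type) (_ : Fintype τ) (_ : DecidableEq τ) (G : (τ → ℤˣ) → ℤˣ),
      fc G ∅ = 0 ∧ (∀ T, (k + 1) * d ^ k < T.card → fc G T = 0) ∧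
        (∑ i, fc f {i}) ^ k ≤ ∑ t, fc G {t} := by
  obtain ⟨e, he⟩ : ∃ e : ℤˣ, sg e * fc f ∅ = |fc f ∅| := by
    rcases le_total 0 (fc f ∅) with h | h
    · exact ⟨1, by rw [abs_of_nonneg h]; simp⟩
    · exact ⟨-1, by rw [abs_of_nonpos h]; simp⟩
  induction k with
  | zero =>
    obtain ⟨G, h1, h2, h3⟩ := base_case
    exact ⟨Unit, inferInstance, inferInstance, G, h1, by simpa using h2, by rw [h3, pow_zero]⟩
  | succ k ih =>
    obtain ⟨τ, i1, i2, G, h1, h2, h3⟩ := ih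
    refine ⟨Option (ι × τ), inferInstance, inferInstance, oddize e (comp f G), ?_, ?_, ?_⟩
    · exact mean_oddize e _
    · intro T hT
      apply deg_oddize_succ e (comp f G) (d * ((k + 1) * d ^ k))
        (fun S hS => deg_comp f G h1 d ((k + 1) * d ^ k) hfd h2 S hS) T
      have h4 : 1 ≤ d ^ (k + 1) := Nat.one_le_pow _ _ hd
      have h5 : (k + 1 + 1) * d ^ (k + 1) = d * ((k + 1) * d ^ k) + d ^ (k + 1) := by ring
      omega
    · rw [level_one_oddize, mean_comp f G h1, he, level_one_comp f G h1, pow_succ]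
      have h6 : (∑ i, fc f {i}) ^ k * (∑ i, fc f {i}) ≤ (∑ t, fc G {t}) * (∑ i, fc f {i}) :=
        mul_le_mul_of_nonneg_right h3 hL
      have h7 : 0 ≤ |fc f ∅| := abs_nonneg _
      nlinarith

/-- amplification valid for every degree bound `d ≥ 1` -/
lemma amplify2 (n d : ℕ) (hd : 1 ≤ d) (f : (Fin n → ℤˣ) → ℤˣ)
    (hdeg : ∀ S, d < S.card → fc f S = 0) (hL : 0 ≤ ∑ i, fc f {i}) (k : ℕ) :
    ∃ (N : ℕ) (F : (Fin N → ℤˣ) → ℤˣ), (∀ S, (k + 1) * d ^ k < S.card → fc F S = 0) ∧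
      (∑ i, fc f {i}) ^ k ≤ ∑ i, fc F {i} := by
  obtain ⟨τ, i1, i2, G, _, h2, h3⟩ := iterate2 f d hd hdeg hL k
  let eqv := Fintype.equivFin τ
  refine ⟨Fintype.card τ, fun x => G (fun t => x (eqv t)), ?_, ?_⟩
  · intro S hS
    rw [fc_reindex eqv G S]
    apply h2
    rwa [Finset.card_map]
  · refine le_trans h3 (le_of_eq ?_)
    apply Fintype.sum_equiv eqv
    intro t
    rw [fc_reindex eqv G {eqv t}]
    simp

/-- exponential beats polynomial -/
lemma le_of_pow_le_poly (x y C : ℝ) (m : ℕ) (hy : 0 < y)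
    (h : ∀ k : ℕ, x ^ k ≤ C * ((k : ℝ) + 1) ^ m * y ^ k) : x ≤ y := by
  by_contra hcon
  have hlt : y < x := not_le.1 hcon
  set r := x / y with hr
  have hr1 : 1 < r := by
    rw [hr, one_lt_div hy]
    exact hlt
  have hrk : ∀ k : ℕ, r ^ k ≤ C * ((k : ℝ) + 1) ^ m := by
    intro k
    rw [hr, div_pow, div_le_iff₀ (by positivity)]
    exact h k
  have hC : 0 < C := by
    have := hrk 0
    simp at this
    linarith
  have ht := tendsto_pow_const_div_const_pow_of_one_lt m hr1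
  have hev := ht.eventually (gt_mem_nhds (show (0:ℝ) < 1 / (C * r) by positivity))
  obtain ⟨N, hN⟩ := Filter.eventually_atTop.1 hev
  have h1 := hN (N + 1) (by omega)
  have h2 := hrk N
  have h3 : (((N + 1 : ℕ) : ℝ)) ^ m / r ^ (N + 1) < 1 / (C * r) := h1
  rw [div_lt_div_iff₀ (by positivity) (by positivity)] at h3
  push_cast at h3
  rw [pow_succ] at h3
  have hr0 : 0 < r := by linarith
  have h4 : ((N : ℝ) + 1) ^ m * C < r ^ N := by
    have : ((N : ℝ) + 1) ^ m * C * r < r ^ N * r := by nlinarith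
    exact lt_of_mul_lt_mul_right this hr0.le
  nlinarith

end Vale.Agent.Lib.P047
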