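import Mathlib

/-!
# P047: Fourier analysis on the cube with a biased product measure

For a Boolean function of degree at most `d` the mean `g t` under the product measure of bias `t`
satisfies `(1 - t^2) |g' t| ≤ d (1 - g t ^ 2)`.
-/

namespace Vale.Agent.Lib.P047.Biased

open Finset

set_option linter.unusedSectionVars false

/-- real value of a sign -/
noncomputable def sg (u : ℤˣ) : ℝ := ((u : ℤ) : ℝ)

@[simp] lemma sg_one : sg 1 = 1 := by simp [sg]
@[simp] lemma sg_neg_one : sg (-1) = -1 := by simp [sg]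
lemma sg_neg (u : ℤˣ) : sg (-u) = - sg u := by simp [sg]
lemma sg_sq (u : ℤˣ) : sg u * sg u = 1 := by
  rcases Int.units_eq_one_or u with h | h <;> simp [h]
lemma sg_cases (u : ℤˣ) : sg u = 1 ∨ sg u = -1 := by
  rcases Int.units_eq_one_or u with h | h <;> simp [h]

lemma sum_units (h : ℤˣ → ℝ) : ∑ s : ℤˣ, h s = h 1 + h (-1) := by
  have : (Finset.univ : Finset ℤˣ) = {1, -1} := by decide
  rw [this, Finset.sum_pair (by decide)]

variable {ι : Type} [Fintype ι] [DecidableEq ι]

lemma sum_prod (g : ι → ℤˣ → ℝ) :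
    ∑ x : ι → ℤˣ, ∏ i, g i (x i) = ∏ i, (g i 1 + g i (-1)) := by
  have h := (Finset.prod_univ_sum (fun _ : ι => (Finset.univ : Finset ℤˣ)) g).symm
  rw [Fintype.piFinset_univ] at h
  rw [h]
  exact Finset.prod_congr rfl (fun i _ => sum_units _)

/-- weight of the point `x` under the product measure with mean `t` in every coordinate -/
noncomputable def wt (t : ℝ) (x : ι → ℤˣ) : ℝ := ∏ i, ((1 + t * sg (x i)) / 2)

/-- the centred monomial -/
noncomputable def pm (t : ℝ) (S : Finset ι) (x : ι → ℤˣ) : ℝ := ∏ i ∈ S, (sg (x i) - t)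

/-- biased correlation of `h` with the centred monomial -/
noncomputable def bc (t : ℝ) (h : (ι → ℤˣ) → ℝ) (S : Finset ι) : ℝ :=
  ∑ x, wt t x * h x * pm t S x

lemma sum_wt (t : ℝ) : ∑ x : ι → ℤˣ, wt t x = 1 := by
  unfold wt
  rw [sum_prod (fun _ s => (1 + t * sg s) / 2)]
  apply Finset.prod_eq_one
  intro i _
  simp
  ring

lemma wt_nonneg {t : ℝ} (ht : |t| ≤ 1) (x : ι → ℤˣ) : 0 ≤ wt t x := by
  unfold wt
  apply Finset.prod_nonneg
  intro i _
  have := abs_le.mp ht
  rcases sg_cases (x i) with h | h <;> rw [h] <;> linarith [this.1, this.2]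

lemma wt_pos {t : ℝ} (ht : |t| < 1) (x : ι → ℤˣ) : 0 < wt t x := by
  unfold wt
  apply Finset.prod_pos
  intro i _
  have := abs_lt.mp ht
  rcases sg_cases (x i) with h | h <;> rw [h] <;> linarith [this.1, this.2]

lemma kernel {t : ℝ} (ht : t ^ 2 < 1) (x y : ι → ℤˣ) :
    wt t y * ∑ S : Finset ι, pm t S x * pm t S y / (1 - t ^ 2) ^ S.card
      = if x = y then 1 else 0 := by
  have hne : (1 - t ^ 2) ≠ 0 := by linarith
  have h1 : ∑ S : Finset ι, pm t S x * pm t S y / (1 - t ^ 2) ^ S.card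
      = ∏ i, (1 + (sg (x i) - t) * (sg (y i) - t) / (1 - t ^ 2)) := by
    rw [Finset.prod_one_add, Finset.powerset_univ]
    refine Finset.sum_congr rfl fun S _ => ?_
    unfold pm
    rw [Finset.prod_div_distrib, Finset.prod_mul_distrib, Finset.prod_const]
  rw [h1]
  unfold wt
  rw [← Finset.prod_mul_distrib]
  have hp : (1 + t) ≠ 0 := by nlinarith
  have hm : (1 - t) ≠ 0 := by nlinarith
  split_ifs with h
  · subst h
    apply Finset.prod_eq_one
    intro i _
    rcases sg_cases (x i) with h | h <;> rw [h] <;> field_simp <;> ring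
  · obtain ⟨i, hi⟩ := Function.ne_iff.mp h
    apply Finset.prod_eq_zero (Finset.mem_univ i)
    rcases Int.units_eq_one_or (x i) with h1 | h1 <;>
      rcases Int.units_eq_one_or (y i) with h2 | h2
    · exact absurd (h1.trans h2.symm) hi
    · rw [h1, h2]; simp only [sg_one, sg_neg_one]; field_simp; ring
    · rw [h1, h2]; simp only [sg_one, sg_neg_one]; field_simp; ring
    · exact absurd (h1.trans h2.symm) hi

lemma parseval {t : ℝ} (ht : t ^ 2 < 1) (h : (ι → ℤˣ) → ℝ) :
    ∑ S : Finset ι, bc t h S ^ 2 / (1 - t ^ 2) ^ S.card = ∑ x, wt t x * h x ^ 2 := by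
  calc ∑ S : Finset ι, bc t h S ^ 2 / (1 - t ^ 2) ^ S.card
      = ∑ S : Finset ι, ∑ x, ∑ y, wt t x * h x * h y *
          (wt t y * (pm t S x * pm t S y / (1 - t ^ 2) ^ S.card)) := by
        refine Finset.sum_congr rfl fun S _ => ?_
        unfold bc
        rw [sq, Finset.sum_mul_sum, Finset.sum_div]
        refine Finset.sum_congr rfl fun x _ => ?_
        rw [Finset.sum_div]
        refine Finset.sum_congr rfl fun y _ => ?_
        ring
    _ = ∑ x, ∑ y, wt t x * h x * h y *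
          (wt t y * ∑ S : Finset ι, pm t S x * pm t S y / (1 - t ^ 2) ^ S.card) := by
        rw [Finset.sum_comm]
        refine Finset.sum_congr rfl fun x _ => ?_
        rw [Finset.sum_comm]
        refine Finset.sum_congr rfl fun y _ => ?_
        rw [Finset.mul_sum, Finset.mul_sum]
    _ = ∑ x, wt t x * h x ^ 2 := by
        refine Finset.sum_congr rfl fun x _ => ?_
        simp only [kernel ht]
        simp
        ring

/-- negate coordinate `i` -/
def flip (i : ι) (x : ι → ℤˣ) : ι → ℤˣ := Function.update x i (-(x i))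

lemma flip_flip (i : ι) (x : ι → ℤˣ) : flip i (flip i x) = x := by
  ext j
  by_cases h : j = i
  · subst h; simp [flip]
  · simp [flip, h]

lemma flip_same (i : ι) (x : ι → ℤˣ) : flip i x i = -(x i) := by simp [flip]
lemma flip_ne (i : ι) (x : ι → ℤˣ) {j : ι} (h : j ≠ i) : flip i x j = x j := by simp [flip, h]

/-- `flip i` as a permutation of the cube -/
def flipEquiv (i : ι) : (ι → ℤˣ) ≃ (ι → ℤˣ) where
  toFun := flip i
  invFun := flip i
  left_inv := flip_flip i
  right_inv := flip_flip i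

lemma sum_flip (i : ι) (F : (ι → ℤˣ) → ℝ) : ∑ x, F (flip i x) = ∑ x, F x :=
  Equiv.sum_comp (flipEquiv i) F

lemma wt_flip (t : ℝ) (i : ι) (x : ι → ℤˣ) :
    wt t (flip i x) * ((1 + t * sg (x i)) / 2) = wt t x * ((1 - t * sg (x i)) / 2) := by
  unfold wt
  rw [← Finset.mul_prod_erase univ _ (Finset.mem_univ i),
    ← Finset.mul_prod_erase univ (fun j => (1 + t * sg (x j)) / 2) (Finset.mem_univ i)]
  have : ∏ j ∈ univ.erase i, ((1 + t * sg (flip i x j)) / 2)
      = ∏ j ∈ univ.erase i, ((1 + t * sg (x j)) / 2) := by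
    refine Finset.prod_congr rfl fun j hj => ?_
    rw [flip_ne i x (Finset.ne_of_mem_erase hj)]
  rw [this, flip_same, sg_neg]
  ring

lemma pm_flip (t : ℝ) (S : Finset ι) (i : ι) (x : ι → ℤˣ) :
    ((1 - t * sg (x i)) / 2) * (pm t S x - pm t S (flip i x)) = if i ∈ S then pm t S x else 0 := by
  split_ifs with h
  · unfold pm
    rw [← Finset.mul_prod_erase S _ h, ← Finset.mul_prod_erase S (fun j => sg (flip i x j) - t) h]
    have : ∏ j ∈ S.erase i, (sg (flip i x j) - t) = ∏ j ∈ S.erase i, (sg (x j) - t) := by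
      refine Finset.prod_congr rfl fun j hj => ?_
      rw [flip_ne i x (Finset.ne_of_mem_erase hj)]
    rw [this, flip_same, sg_neg]
    have h2 := sg_sq (x i)
    have : (1 - t * sg (x i)) / 2 * ((sg (x i) - t) * ∏ j ∈ S.erase i, (sg (x j) - t)
        - (-sg (x i) - t) * ∏ j ∈ S.erase i, (sg (x j) - t))
        = (sg (x i) - t * (sg (x i) * sg (x i))) * ∏ j ∈ S.erase i, (sg (x j) - t) := by ring
    rw [this, h2, mul_one]
  · have : pm t S (flip i x) = pm t S x := by
      unfold pm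
      refine Finset.prod_congr rfl fun j hj => ?_
      have : j ≠ i := fun e => h (e ▸ hj)
      rw [flip_ne i x this]
    rw [this]; ring

/-- the `i`-th Laplacian of `h` for the biased measure -/
noncomputable def lap (t : ℝ) (i : ι) (h : (ι → ℤˣ) → ℝ) (x : ι → ℤˣ) : ℝ :=
  ((1 - t * sg (x i)) / 2) * (h x - h (flip i x))

lemma bc_lap (t : ℝ) (i : ι) (h : (ι → ℤˣ) → ℝ) (S : Finset ι) :
    bc t (lap t i h) S = if i ∈ S then bc t h S else 0 := by
  have h1 : ∑ x, wt t x * (((1 - t * sg (x i)) / 2) * h (flip i x)) * pm t S x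
      = ∑ x, wt t x * (((1 - t * sg (x i)) / 2) * h x) * pm t S (flip i x) := by
    rw [← sum_flip i]
    refine Finset.sum_congr rfl fun x _ => ?_
    rw [flip_flip, flip_same, sg_neg]
    have := wt_flip t i x
    calc wt t (flip i x) * ((1 - t * -sg (x i)) / 2 * h x) * pm t S (flip i x)
        = (wt t (flip i x) * ((1 + t * sg (x i)) / 2)) * h x * pm t S (flip i x) := by ring
      _ = wt t x * ((1 - t * sg (x i)) / 2 * h x) * pm t S (flip i x) := by rw [this]; ring
  have h2 : bc t (lap t i h) S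
      = ∑ x, wt t x * h x * (((1 - t * sg (x i)) / 2) * (pm t S x - pm t S (flip i x))) := by
    unfold bc lap
    have : ∀ x, wt t x * (((1 - t * sg (x i)) / 2) * (h x - h (flip i x))) * pm t S x
        = wt t x * (((1 - t * sg (x i)) / 2) * h x) * pm t S x
          - wt t x * (((1 - t * sg (x i)) / 2) * h (flip i x)) * pm t S x := by
      intro x; ring
    simp only [this]
    rw [Finset.sum_sub_distrib, h1, ← Finset.sum_sub_distrib]
    refine Finset.sum_congr rfl fun x _ => ?_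
    ring
  rw [h2]
  simp only [pm_flip]
  split_ifs with hi
  · rfl
  · simp

lemma abs_aux (a δ c : ℝ) (ha : 0 ≤ a) (hc : |c| = 2 * a) (hδ : δ = 0 ∨ δ = 2 ∨ δ = -2) :
    |a * δ| * |c| ≤ (a * δ) ^ 2 := by
  rw [hc]
  rcases hδ with h | h | h
  · subst h; simp
  · subst h
    rw [abs_of_nonneg (by linarith)]
    nlinarith
  · subst h
    rw [show a * (-2:ℝ) = -(a * 2) by ring, abs_neg, abs_of_nonneg (by linarith)]
    nlinarith

/-- level-one correlations are dominated by the energy of the Laplacian, for sign-valued `φ` -/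
lemma abs_bc_single_le {t : ℝ} (ht : |t| ≤ 1) (i : ι) (φ : (ι → ℤˣ) → ℝ)
    (hφ : ∀ x, φ x = 1 ∨ φ x = -1) :
    |bc t φ {i}| ≤ ∑ x, wt t x * lap t i φ x ^ 2 := by
  have h1 : bc t φ {i} = bc t (lap t i φ) {i} := by
    rw [bc_lap]; simp
  rw [h1]
  unfold bc
  refine le_trans (Finset.abs_sum_le_sum_abs _ _) ?_
  refine Finset.sum_le_sum fun x _ => ?_
  have hw := wt_nonneg ht x
  rw [abs_mul, abs_mul, abs_of_nonneg hw, mul_assoc]
  apply mul_le_mul_of_nonneg_left _ hw
  unfold lap pm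
  rw [Finset.prod_singleton]
  have ht' := abs_le.mp ht
  apply abs_aux
  · rcases sg_cases (x i) with hs | hs <;> rw [hs] <;> linarith [ht'.1, ht'.2]
  · rcases sg_cases (x i) with hs | hs <;> rw [hs]
    · rw [abs_of_nonneg (by linarith [ht'.2])]; ring
    · rw [abs_of_nonpos (by linarith [ht'.1])]; ring
  · rcases hφ x with h1 | h1 <;> rcases hφ (flip i x) with h2 | h2 <;> rw [h1, h2] <;> norm_num

/-- the reversed Poincare inequality for sign-valued functions of degree at most `d` -/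
theorem sum_abs_bc_le {t : ℝ} (ht : t ^ 2 < 1) (d : ℕ) (φ : (ι → ℤˣ) → ℝ)
    (hφ : ∀ x, φ x = 1 ∨ φ x = -1) (hdeg : ∀ S : Finset ι, d < S.card → bc t φ S = 0) :
    ∑ i, |bc t φ {i}| ≤ d * (1 - bc t φ ∅ ^ 2) := by
  have ht1 : |t| ≤ 1 := by
    rw [abs_le]; constructor <;> nlinarith
  have hpos : 0 < 1 - t ^ 2 := by linarith
  set B : Finset ι → ℝ := fun S => bc t φ S ^ 2 / (1 - t ^ 2) ^ S.card with hB
  have hBnn : ∀ S, 0 ≤ B S := fun S => div_nonneg (sq_nonneg _) (pow_pos hpos _).le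
  have hsum : ∑ S, B S = 1 := by
    rw [hB, parseval ht]
    have : ∀ x, wt t x * φ x ^ 2 = wt t x := by
      intro x
      rcases hφ x with h | h <;> rw [h] <;> ring
    simp only [this]
    exact sum_wt t
  have h1 : ∀ i, |bc t φ {i}| ≤ ∑ S, if i ∈ S then B S else 0 := by
    intro i
    refine le_trans (abs_bc_single_le ht1 i φ hφ) (le_of_eq ?_)
    rw [← parseval ht]
    refine Finset.sum_congr rfl fun S _ => ?_
    rw [bc_lap]
    split_ifs <;> simp [hB]
  have h2 : ∑ i, ∑ S, (if i ∈ S then B S else 0) = ∑ S, (S.card : ℝ) * B S := by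
    rw [Finset.sum_comm]
    refine Finset.sum_congr rfl fun S _ => ?_
    rw [← Finset.sum_filter]
    simp
  have h3 : ∑ S, (S.card : ℝ) * B S ≤ ∑ S, (d : ℝ) * (if S = ∅ then 0 else B S) := by
    refine Finset.sum_le_sum fun S _ => ?_
    split_ifs with hS
    · subst hS; simp
    · by_cases hd : d < S.card
      · have : B S = 0 := by simp [hB, hdeg S hd]
        rw [this]; simp
      · have : (S.card : ℝ) ≤ d := by exact_mod_cast not_lt.mp hd
        exact mul_le_mul_of_nonneg_right this (hBnn S)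
  have h4 : ∑ S, (if S = ∅ then 0 else B S) = 1 - bc t φ ∅ ^ 2 := by
    have : ∀ S, (if S = ∅ then 0 else B S) = B S - (if S = ∅ then B ∅ else 0) := by
      intro S
      split_ifs with h
      · subst h; ring
      · ring
    simp only [this]
    rw [Finset.sum_sub_distrib, hsum, Finset.sum_ite_eq']
    simp [hB]
  calc ∑ i, |bc t φ {i}| ≤ ∑ i, ∑ S, (if i ∈ S then B S else 0) :=
        Finset.sum_le_sum fun i _ => h1 i
    _ = ∑ S, (S.card : ℝ) * B S := h2
    _ ≤ ∑ S, (d : ℝ) * (if S = ∅ then 0 else B S) := h3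
    _ = d * (1 - bc t φ ∅ ^ 2) := by rw [← Finset.mul_sum, h4]

/-- the (uniform) Fourier coefficient -/
noncomputable def fcoef (φ : (ι → ℤˣ) → ℝ) (S : Finset ι) : ℝ :=
  (∑ x, φ x * ∏ i ∈ S, sg (x i)) / 2 ^ Fintype.card ι

lemma wt_mul_pm (t : ℝ) (S : Finset ι) (x : ι → ℤˣ) :
    wt t x * pm t S x = (1 - t ^ 2) ^ S.card *
      ∑ U ∈ Sᶜ.powerset, t ^ U.card * (∏ i ∈ S ∪ U, sg (x i)) / 2 ^ Fintype.card ι := by
  have h1 : wt t x = (∏ i ∈ S, (1 + t * sg (x i))) * (∏ i ∈ Sᶜ, (1 + t * sg (x i)))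
      / 2 ^ Fintype.card ι := by
    unfold wt
    rw [Finset.prod_div_distrib, Finset.prod_const, Finset.card_univ, Finset.prod_mul_prod_compl]
  have h2 : (∏ i ∈ S, (1 + t * sg (x i))) * pm t S x
      = (1 - t ^ 2) ^ S.card * ∏ i ∈ S, sg (x i) := by
    unfold pm
    rw [← Finset.prod_mul_distrib, ← Finset.prod_const, ← Finset.prod_mul_distrib]
    refine Finset.prod_congr rfl fun i _ => ?_
    have := sg_sq (x i)
    calc (1 + t * sg (x i)) * (sg (x i) - t)
        = sg (x i) - t + t * (sg (x i) * sg (x i)) - t ^ 2 * sg (x i) := by ring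
      _ = (1 - t ^ 2) * sg (x i) := by rw [this]; ring
  have h3 : ∏ i ∈ Sᶜ, (1 + t * sg (x i)) = ∑ U ∈ Sᶜ.powerset, t ^ U.card * ∏ i ∈ U, sg (x i) := by
    rw [Finset.prod_one_add]
    refine Finset.sum_congr rfl fun U _ => ?_
    rw [Finset.prod_mul_distrib, Finset.prod_const]
  calc wt t x * pm t S x
      = ((∏ i ∈ S, (1 + t * sg (x i))) * pm t S x) * (∏ i ∈ Sᶜ, (1 + t * sg (x i)))
          / 2 ^ Fintype.card ι := by rw [h1]; ring
    _ = (1 - t ^ 2) ^ S.card *
      ∑ U ∈ Sᶜ.powerset, t ^ U.card * (∏ i ∈ S ∪ U, sg (x i)) / 2 ^ Fintype.card ι := by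
        rw [h2, h3, Finset.mul_sum, Finset.mul_sum, Finset.sum_div]
        refine Finset.sum_congr rfl fun U hU => ?_
        have hdisj : Disjoint S U := by
          rw [Finset.mem_powerset] at hU
          exact Finset.disjoint_of_subset_right hU disjoint_compl_right
        rw [Finset.prod_union hdisj]
        ring

lemma bc_eq (t : ℝ) (φ : (ι → ℤˣ) → ℝ) (S : Finset ι) :
    bc t φ S = (1 - t ^ 2) ^ S.card * ∑ U ∈ Sᶜ.powerset, t ^ U.card * fcoef φ (S ∪ U) := by
  unfold bc fcoef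
  have : ∀ x, wt t x * φ x * pm t S x = φ x * ((1 - t ^ 2) ^ S.card *
      ∑ U ∈ Sᶜ.powerset, t ^ U.card * (∏ i ∈ S ∪ U, sg (x i)) / 2 ^ Fintype.card ι) := by
    intro x
    rw [← wt_mul_pm]; ring
  simp only [this, Finset.mul_sum]
  rw [Finset.sum_comm]
  refine Finset.sum_congr rfl fun U _ => ?_
  rw [Finset.sum_div, Finset.mul_sum, Finset.mul_sum]
  refine Finset.sum_congr rfl fun x _ => ?_
  ring

lemma bc_eq_zero_of_deg (t : ℝ) (φ : (ι → ℤˣ) → ℝ) (d : ℕ)
    (hdeg : ∀ S : Finset ι, d < S.card → fcoef φ S = 0) (S : Finset ι) (hS : d < S.card) :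
    bc t φ S = 0 := by
  rw [bc_eq]
  have : ∑ U ∈ Sᶜ.powerset, t ^ U.card * fcoef φ (S ∪ U) = 0 := by
    apply Finset.sum_eq_zero
    intro U _
    rw [hdeg (S ∪ U) (lt_of_lt_of_le hS (Finset.card_le_card Finset.subset_union_left))]
    ring
  rw [this]; ring

open Polynomial in
/-- the mean of `φ` under bias `t`, as a polynomial in `t` -/
noncomputable def meanPoly (φ : (ι → ℤˣ) → ℝ) : ℝ[X] :=
  ∑ S : Finset ι, C (fcoef φ S) * X ^ S.card

lemma meanPoly_eval (φ : (ι → ℤˣ) → ℝ) (t : ℝ) : (meanPoly φ).eval t = bc t φ ∅ := by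
  rw [bc_eq]
  unfold meanPoly
  rw [Polynomial.eval_finsetSum]
  simp only [Finset.card_empty, pow_zero, one_mul, Finset.compl_empty, Finset.powerset_univ,
    Finset.empty_union]
  refine Finset.sum_congr rfl fun S _ => ?_
  simp
  ring

lemma meanPoly_eval' (φ : (ι → ℤˣ) → ℝ) (t : ℝ) : (meanPoly φ).eval t = ∑ x, wt t x * φ x := by
  rw [meanPoly_eval]
  unfold bc pm
  simp

lemma meanPoly_natDegree (φ : (ι → ℤˣ) → ℝ) (d : ℕ)
    (hdeg : ∀ S : Finset ι, d < S.card → fcoef φ S = 0) : (meanPoly φ).natDegree ≤ d := by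
  unfold meanPoly
  apply Polynomial.natDegree_sum_le_of_forall_le
  intro S _
  by_cases hS : d < S.card
  · rw [hdeg S hS]; simp
  · exact le_trans (Polynomial.natDegree_C_mul_X_pow_le _ _) (not_lt.mp hS)

lemma meanPoly_coeff_one (φ : (ι → ℤˣ) → ℝ) : (meanPoly φ).coeff 1 = ∑ i, fcoef φ {i} := by
  unfold meanPoly
  rw [Polynomial.finsetSum_coeff]
  simp only [Polynomial.coeff_C_mul_X_pow]
  rw [← Finset.sum_filter]
  symm
  apply Finset.sum_nbij (fun i => ({i} : Finset ι))
  · intro i _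
    simp
  · intro i _ j _ h
    exact Finset.singleton_injective h
  · intro S hS
    have hS' : S.card = 1 := by
      have := (Finset.mem_filter.mp (Finset.mem_coe.mp hS)).2
      exact this.symm
    obtain ⟨a, ha⟩ := Finset.card_eq_one.mp hS'
    exact ⟨a, by simp, ha.symm⟩
  · intro i _
    rfl

lemma hasDerivAt_wt (x : ι → ℤˣ) (t : ℝ) :
    HasDerivAt (fun t => wt t x)
      (∑ i, (∏ j ∈ univ.erase i, ((1 + t * sg (x j)) / 2)) * (sg (x i) / 2)) t := by
  unfold wt
  have h : ∀ i ∈ (univ : Finset ι),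
      HasDerivAt (fun t : ℝ => (1 + t * sg (x i)) / 2) (sg (x i) / 2) t := by
    intro i _
    have h1 : HasDerivAt (fun t : ℝ => 1 + t * sg (x i)) (sg (x i)) t := by
      simpa using ((hasDerivAt_id t).mul_const (sg (x i))).const_add 1
    exact h1.div_const 2
  have := HasDerivAt.fun_finsetProd h
  simpa [smul_eq_mul] using this

lemma deriv_term (t : ℝ) (i : ι) (x : ι → ℤˣ) :
    (1 - t ^ 2) * ((∏ j ∈ univ.erase i, ((1 + t * sg (x j)) / 2)) * (sg (x i) / 2))
      = wt t x * (sg (x i) - t) := by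
  unfold wt
  rw [← Finset.mul_prod_erase univ (fun j => (1 + t * sg (x j)) / 2) (Finset.mem_univ i)]
  have := sg_sq (x i)
  have h2 : (1 + t * sg (x i)) / 2 * (sg (x i) - t) = (1 - t ^ 2) * (sg (x i) / 2) := by
    calc (1 + t * sg (x i)) / 2 * (sg (x i) - t)
        = (sg (x i) - t + t * (sg (x i) * sg (x i)) - t ^ 2 * sg (x i)) / 2 := by ring
      _ = (1 - t ^ 2) * (sg (x i) / 2) := by rw [this]; ring
  calc (1 - t ^ 2) * ((∏ j ∈ univ.erase i, ((1 + t * sg (x j)) / 2)) * (sg (x i) / 2))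
      = ((1 - t ^ 2) * (sg (x i) / 2)) * ∏ j ∈ univ.erase i, ((1 + t * sg (x j)) / 2) := by ring
    _ = ((1 + t * sg (x i)) / 2 * ∏ j ∈ univ.erase i, ((1 + t * sg (x j)) / 2))
          * (sg (x i) - t) := by rw [← h2]; ring

lemma deriv_meanPoly (φ : (ι → ℤˣ) → ℝ) (t : ℝ) :
    (1 - t ^ 2) * (Polynomial.derivative (meanPoly φ)).eval t = ∑ i, bc t φ {i} := by
  have H1 := Polynomial.hasDerivAt (meanPoly φ) t
  have H2 : HasDerivAt (fun t => ∑ x, wt t x * φ x)
      (∑ x, (∑ i, (∏ j ∈ univ.erase i, ((1 + t * sg (x j)) / 2)) * (sg (x i) / 2)) * φ x) t := by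
    apply HasDerivAt.fun_sum
    intro x _
    exact (hasDerivAt_wt x t).mul_const (φ x)
  have hfun : (fun t => (meanPoly φ).eval t) = fun t => ∑ x, wt t x * φ x := by
    funext s
    exact meanPoly_eval' φ s
  rw [hfun] at H1
  rw [H1.unique H2, Finset.mul_sum]
  unfold bc pm
  rw [Finset.sum_comm]
  refine Finset.sum_congr rfl fun x _ => ?_
  rw [Finset.sum_mul, Finset.mul_sum]
  refine Finset.sum_congr rfl fun i _ => ?_
  rw [Finset.prod_singleton, ← mul_assoc, deriv_term]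
  ring

/-- **The differential inequality.** -/
theorem diff_ineq {t : ℝ} (ht : t ^ 2 < 1) (d : ℕ) (φ : (ι → ℤˣ) → ℝ)
    (hφ : ∀ x, φ x = 1 ∨ φ x = -1) (hdeg : ∀ S : Finset ι, d < S.card → fcoef φ S = 0) :
    (1 - t ^ 2) * |(Polynomial.derivative (meanPoly φ)).eval t|
      ≤ d * (1 - (meanPoly φ).eval t ^ 2) := by
  have hpos : 0 < 1 - t ^ 2 := by linarith
  have e1 : (1 - t ^ 2) * |(Polynomial.derivative (meanPoly φ)).eval t|
      = |(1 - t ^ 2) * (Polynomial.derivative (meanPoly φ)).eval t| := by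
    rw [abs_mul, abs_of_pos hpos]
  rw [meanPoly_eval, e1, deriv_meanPoly]
  refine le_trans (Finset.abs_sum_le_sum_abs _ _) ?_
  exact sum_abs_bc_le ht d φ hφ (bc_eq_zero_of_deg t φ d hdeg)

lemma abs_meanPoly_le {t : ℝ} (ht : |t| ≤ 1) (φ : (ι → ℤˣ) → ℝ)
    (hφ : ∀ x, φ x = 1 ∨ φ x = -1) : |(meanPoly φ).eval t| ≤ 1 := by
  rw [meanPoly_eval']
  refine le_trans (Finset.abs_sum_le_sum_abs _ _) ?_
  rw [← sum_wt (ι := ι) t]
  refine Finset.sum_le_sum fun x _ => ?_
  rw [abs_mul, abs_of_nonneg (wt_nonneg ht x)]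
  rcases hφ x with h | h <;> rw [h] <;> simp

/-- strict bound for nonconstant functions -/
lemma abs_meanPoly_lt {t : ℝ} (ht : |t| < 1) (φ : (ι → ℤˣ) → ℝ)
    (hφ : ∀ x, φ x = 1 ∨ φ x = -1) (a b : ι → ℤˣ) (ha : φ a = 1) (hb : φ b = -1) :
    |(meanPoly φ).eval t| < 1 := by
  rw [meanPoly_eval', abs_lt, ← sum_wt (ι := ι) t, ← Finset.sum_neg_distrib]
  constructor
  · apply Finset.sum_lt_sum
    · intro x _
      have := wt_nonneg ht.le x
      rcases hφ x with h | h <;> rw [h] <;> linarith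
    · exact ⟨a, Finset.mem_univ a, by rw [ha]; linarith [wt_pos ht a]⟩
  · apply Finset.sum_lt_sum
    · intro x _
      have := wt_nonneg ht.le x
      rcases hφ x with h | h <;> rw [h] <;> linarith
    · exact ⟨b, Finset.mem_univ b, by rw [hb]; linarith [wt_pos ht b]⟩

end Vale.Agent.Lib.P047.Biased
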