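import Mathlib

open Finset BigOperators

namespace Vale.Agent.Lib.P047.Conical


lemma sum_units (h : ℤˣ → ℝ) : ∑ s : ℤˣ, h s = h 1 + h (-1) := by
  have : (Finset.univ : Finset ℤˣ) = {1, -1} := by decide
  rw [this, Finset.sum_pair (by decide)]

lemma avg_prod (n : ℕ) (g : Fin n → ℤˣ → ℝ) :
    (∑ x : Fin n → ℤˣ, ∏ i, g i (x i)) / 2 ^ n = ∏ i, ((g i 1 + g i (-1)) / 2) := by
  have h := (Finset.prod_univ_sum (fun _ : Fin n => (Finset.univ : Finset ℤˣ)) g).symm
  rw [Fintype.piFinset_univ] at h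
  rw [h, Finset.prod_div_distrib]
  congr 1
  · exact Finset.prod_congr rfl (fun i _ => sum_units _)
  · simp

/-- one-coordinate factor of the indicator of the subcube `x = 1` on `P`, `x = -1` on `N` -/
noncomputable def fac {n : ℕ} (P N : Finset (Fin n)) (i : Fin n) (s : ℤˣ) : ℝ :=
  (if i ∈ P then (1 + ((s : ℤ) : ℝ)) / 2 else 1) * (if i ∈ N then (1 - ((s : ℤ) : ℝ)) / 2 else 1)

lemma ind_eq {n : ℕ} (P N : Finset (Fin n)) (x : Fin n → ℤˣ) :
    (if ((∀ i ∈ P, x i = 1) ∧ (∀ i ∈ N, x i = -1)) then (1 : ℝ) else 0) = ∏ i, fac P N i (x i) := by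
  split_ifs with h
  · symm
    apply Finset.prod_eq_one
    intro i _
    unfold fac
    have e1 : (if i ∈ P then (1 + (((x i : ℤˣ) : ℤ) : ℝ)) / 2 else 1) = 1 := by
      split_ifs with hP
      · rw [h.1 i hP]; norm_num
      · rfl
    have e2 : (if i ∈ N then (1 - (((x i : ℤˣ) : ℤ) : ℝ)) / 2 else 1) = 1 := by
      split_ifs with hN
      · rw [h.2 i hN]; norm_num
      · rfl
    rw [e1, e2]; norm_num
  · symm
    rw [not_and_or] at h
    rcases h with h | h
    · simp only [not_forall] at h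
      obtain ⟨i, hi, hx⟩ := h
      apply Finset.prod_eq_zero (Finset.mem_univ i)
      have : x i = -1 := by
        rcases Int.units_eq_one_or (x i) with h1 | h1
        · exact absurd h1 hx
        · exact h1
      simp [fac, hi, this]
    · simp only [not_forall] at h
      obtain ⟨i, hi, hx⟩ := h
      apply Finset.prod_eq_zero (Finset.mem_univ i)
      have : x i = 1 := by
        rcases Int.units_eq_one_or (x i) with h1 | h1
        · exact h1
        · exact absurd h1 hx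
      simp [fac, hi, this]

/-- average of indicator times a product weight -/
lemma avg_ind_mul {n : ℕ} (P N : Finset (Fin n)) (ψ : Fin n → ℤˣ → ℝ) :
    (∑ x : Fin n → ℤˣ, (if ((∀ i ∈ P, x i = 1) ∧ (∀ i ∈ N, x i = -1)) then (1 : ℝ) else 0)
      * ∏ i, ψ i (x i)) / 2 ^ n
    = ∏ i, (((if i ∈ N then 0 else 1) * ψ i 1 + (if i ∈ P then 0 else 1) * ψ i (-1)) / 2) := by
  have : ∀ x : Fin n → ℤˣ, (if ((∀ i ∈ P, x i = 1) ∧ (∀ i ∈ N, x i = -1)) then (1 : ℝ) else 0)
      * ∏ i, ψ i (x i) = ∏ i, (fac P N i (x i) * ψ i (x i)) := by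
    intro x
    rw [ind_eq, Finset.prod_mul_distrib]
  simp_rw [this]
  rw [avg_prod n (fun i s => fac P N i s * ψ i s)]
  apply Finset.prod_congr rfl
  intro i _
  unfold fac
  by_cases hP : i ∈ P <;> by_cases hN : i ∈ N <;> simp [hP, hN]



lemma quarter_le (d : ℕ) (hd : 2 ≤ d) : (1/4 : ℝ) ≤ (1 - 1 / (d:ℝ)) ^ d := by
  have hd' : (2:ℝ) ≤ d := by exact_mod_cast hd
  have hpos : (0:ℝ) < d := by linarith
  have hb : (0:ℝ) ≤ 1 - 1 / (d:ℝ) := by
    have : 1 / (d:ℝ) ≤ 1 := by rw [div_le_one hpos]; linarith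
    linarith
  have h1 := one_add_mul_self_le_rpow_one_add (s := -(1 / (d:ℝ))) (by
      have : 1 / (d:ℝ) ≤ 1 := by rw [div_le_one hpos]; linarith
      linarith) (p := (d:ℝ)/2) (by linarith)
  have h2 : 1 + (d:ℝ)/2 * (-(1 / (d:ℝ))) = 1/2 := by field_simp; norm_num
  rw [h2] at h1
  have h3 : ((1 + -(1 / (d:ℝ))) ^ ((d:ℝ)/2)) ^ 2 = (1 - 1 / (d:ℝ)) ^ d := by
    rw [← sub_eq_add_neg, ← Real.rpow_natCast, ← Real.rpow_mul hb, ← Real.rpow_natCast]
    congr 1
    push_cast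
    ring
  rw [← h3]
  have : (1/4:ℝ) = (1/2)^2 := by norm_num
  rw [this]
  exact pow_le_pow_left₀ (by norm_num) h1 2

lemma exp_two_mul_le (e : ℝ) (h0 : 0 ≤ e) (h1 : e < 1) : Real.exp (2 * e) ≤ (1 + e) / (1 - e) := by
  have hpos : 0 < 1 - e := by linarith
  have hx : 0 ≤ 2 * e / (1 - e) := by positivity
  have h := Real.le_log_one_add_of_nonneg hx
  have e1 : 2 * (2 * e / (1 - e)) / (2 * e / (1 - e) + 2) = 2 * e := by
    field_simp
    ring
  have e2 : 1 + 2 * e / (1 - e) = (1 + e) / (1 - e) := by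
    field_simp
    ring
  rw [e1, e2] at h
  have hp : 0 < (1 + e) / (1 - e) := by positivity
  exact (Real.le_log_iff_exp_le hp).1 h

lemma e_mul_le_exp (y : ℝ) : Real.exp 1 * y ≤ Real.exp y := by
  have h := Real.add_one_le_exp (y - 1)
  have : Real.exp y = Real.exp 1 * Real.exp (y - 1) := by
    rw [← Real.exp_add]; congr 1; ring
  rw [this]
  have hp : 0 < Real.exp 1 := Real.exp_pos 1
  nlinarith

lemma term_bound (a b d : ℕ) (hd : 1 ≤ d) (hab : a + b ≤ d) :
    ((a:ℝ) - b) ≤ (2 / Real.exp 1) * Real.sqrt d *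
      ((1 + 1 / Real.sqrt d) ^ a * (1 - 1 / Real.sqrt d) ^ b) := by
  have hE : 0 < Real.exp 1 := Real.exp_pos 1
  have hd' : (1:ℝ) ≤ d := by exact_mod_cast hd
  have hr1 : 1 ≤ Real.sqrt d := by
    rw [show (1:ℝ) = Real.sqrt 1 by simp]
    exact Real.sqrt_le_sqrt hd'
  have hr0 : 0 < Real.sqrt d := by linarith
  set r := Real.sqrt d with hr
  have hrr : r * r = d := Real.mul_self_sqrt (by linarith)
  set e := 1 / r with he
  have he0 : 0 < e := by positivity
  have he1 : e ≤ 1 := by rw [he, div_le_one hr0]; exact hr1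
  have hT0 : 0 ≤ (1 + e) ^ a * (1 - e) ^ b := by
    have : 0 ≤ 1 - e := by linarith
    positivity
  rcases Nat.lt_or_ge b a with hba | hba
  swap
  · have : (a:ℝ) ≤ b := by exact_mod_cast hba
    have h2 : 0 ≤ (2 / Real.exp 1) * r * ((1 + e) ^ a * (1 - e) ^ b) := by positivity
    linarith
  rcases Nat.lt_or_ge d 2 with hd2 | hd2
  · -- d = 1
    have hd1 : d = 1 := by omega
    have ha : a = 1 := by omega
    have hb : b = 0 := by omega
    subst hd1
    have : r = 1 := by rw [hr]; simp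
    have he' : e = 1 := by rw [he, this]; norm_num
    rw [ha, hb, he', this]
    have := Real.exp_one_lt_d9
    norm_num
    have h4 : 2 / Real.exp 1 * 2 = 4 / Real.exp 1 := by ring
    rw [h4, le_div_iff₀ hE]
    linarith
  · -- d ≥ 2
    have hd2' : (2:ℝ) ≤ d := by exact_mod_cast hd2
    have he1' : e < 1 := by
      rw [he, div_lt_one hr0]
      by_contra hcon
      have : r ≤ 1 := not_lt.1 hcon
      nlinarith
    have hee : e * e = 1 / d := by
      rw [he]; field_simp; rw [← hrr]; ring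
    obtain ⟨u, rfl⟩ : ∃ u, a = b + u := ⟨a - b, by omega⟩
    have hpos : 0 < 1 - e := by linarith
    set T := (1 + e) ^ (b + u) * (1 - e) ^ b with hT
    have hT2 : T ^ 2 = (1 - e * e) ^ (b + u + b) * ((1 + e) / (1 - e)) ^ u := by
      have : (1 - e * e) = (1 + e) * (1 - e) := by ring
      rw [hT, this, div_pow, mul_pow, mul_pow]
      field_simp
      ring
    have hq : (1/4:ℝ) ≤ (1 - e * e) ^ (b + u + b) := by
      have h1 := quarter_le d hd2
      rw [hee]
      have hb0 : (0:ℝ) ≤ 1 - 1 / (d:ℝ) := by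
        have : 1 / (d:ℝ) ≤ 1 := by rw [div_le_one (by linarith)]; linarith
        linarith
      have hb1 : 1 - 1 / (d:ℝ) ≤ 1 := by
        have : 0 ≤ 1 / (d:ℝ) := by positivity
        linarith
      calc (1/4:ℝ) ≤ (1 - 1 / (d:ℝ)) ^ d := h1
        _ ≤ (1 - 1 / (d:ℝ)) ^ (b + u + b) := pow_le_pow_of_le_one hb0 hb1 hab
    have hx : (Real.exp 1 * (e * u)) ^ 2 ≤ ((1 + e) / (1 - e)) ^ u := by
      have h1 : Real.exp (2 * e) ^ u ≤ ((1 + e) / (1 - e)) ^ u :=
        pow_le_pow_left₀ (Real.exp_pos _).le (exp_two_mul_le e he0.le he1') u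
      have h2 : Real.exp (2 * e) ^ u = (Real.exp (e * u)) ^ 2 := by
        rw [← Real.exp_nat_mul, ← Real.exp_nat_mul]; congr 1; push_cast; ring
      rw [h2] at h1
      have h3 : Real.exp 1 * (e * u) ≤ Real.exp (e * u) := e_mul_le_exp _
      have h4 : 0 ≤ Real.exp 1 * (e * u) := by positivity
      exact le_trans (pow_le_pow_left₀ h4 h3 2) h1
    have hT3 : ((1/2) * (Real.exp 1 * (e * u))) ^ 2 ≤ T ^ 2 := by
      rw [hT2, mul_pow]
      have : ((1:ℝ)/2)^2 = 1/4 := by norm_num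
      rw [this]
      exact mul_le_mul hq hx (by positivity) (by
        have : 0 ≤ 1 - e * e := by nlinarith
        positivity)
    have hT4 : (1/2) * (Real.exp 1 * (e * u)) ≤ T := by
      exact (pow_le_pow_iff_left₀ (by positivity) hT0 (by norm_num)).1 hT3
    have hfin : (u:ℝ) = (2 / Real.exp 1) * r * ((1/2) * (Real.exp 1 * (e * u))) := by
      rw [he]; field_simp
    have hc : 0 ≤ (2 / Real.exp 1) * r := by positivity
    calc ((b + u : ℕ) : ℝ) - b = u := by push_cast; ring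
      _ = (2 / Real.exp 1) * r * ((1/2) * (Real.exp 1 * (e * u))) := hfin
      _ ≤ (2 / Real.exp 1) * r * T := mul_le_mul_of_nonneg_left hT4 hc



lemma prod_ite_const {n : ℕ} (P : Finset (Fin n)) (c : ℝ) :
    ∏ i : Fin n, (if i ∈ P then c else 1) = c ^ P.card := by
  rw [Finset.prod_ite_mem, Finset.univ_inter, Finset.prod_const]

lemma avg_ind_coord {n : ℕ} (P N : Finset (Fin n)) (hPN : Disjoint P N) (k : Fin n) :
    (∑ x : Fin n → ℤˣ, (if ((∀ i ∈ P, x i = 1) ∧ (∀ i ∈ N, x i = -1)) then (1 : ℝ) else 0)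
      * ((x k : ℤ) : ℝ)) / 2 ^ n
    = ((if k ∈ P then 1 else 0) - (if k ∈ N then 1 else 0)) * (1/2 : ℝ) ^ (P.card + N.card) := by
  have h := avg_ind_mul P N (fun i s => if i = k then ((s : ℤ) : ℝ) else 1)
  have e1 : ∀ x : Fin n → ℤˣ, ∏ i, (if i = k then ((x i : ℤ) : ℝ) else 1) = ((x k : ℤ) : ℝ) := by
    intro x
    rw [Finset.prod_ite_eq' Finset.univ k (fun i => ((x i : ℤ) : ℝ))]
    simp
  simp only [e1] at h
  rw [h]
  have e2 : ∀ i : Fin n, (((if i ∈ N then 0 else 1) * (if i = k then (((1:ℤˣ) : ℤ) : ℝ) else 1)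
      + (if i ∈ P then 0 else 1) * (if i = k then (((-1:ℤˣ) : ℤ) : ℝ) else 1)) / 2 : ℝ)
      = ((if i ∈ P then (1/2:ℝ) else 1) * (if i ∈ N then (1/2:ℝ) else 1)) *
        (if i = k then ((if k ∈ P then 1 else 0) - (if k ∈ N then 1 else 0) : ℝ) else 1) := by
    intro i
    have hdis : i ∈ P → i ∉ N := fun h1 h2 => (Finset.disjoint_left.1 hPN) h1 h2
    by_cases hik : i = k
    · subst hik
      by_cases hP : i ∈ P
      · have hN := hdis hP
        simp [hP, hN]
      · by_cases hN : i ∈ N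
        · simp [hP, hN]; norm_num
        · simp [hP, hN]
    · by_cases hP : i ∈ P
      · have hN := hdis hP
        simp [hP, hN, hik]
      · by_cases hN : i ∈ N <;> simp [hP, hN, hik]
  rw [Finset.prod_congr rfl (fun i _ => e2 i), Finset.prod_mul_distrib, Finset.prod_mul_distrib,
    prod_ite_const, prod_ite_const, Finset.prod_ite_eq' Finset.univ k]
  simp only [Finset.mem_univ, if_true]
  rw [pow_add]
  ring

lemma avg_ind_bias {n : ℕ} (P N : Finset (Fin n)) (hPN : Disjoint P N) (e : ℝ) :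
    (∑ x : Fin n → ℤˣ, (if ((∀ i ∈ P, x i = 1) ∧ (∀ i ∈ N, x i = -1)) then (1 : ℝ) else 0)
      * ∏ i, (1 + e * ((x i : ℤ) : ℝ))) / 2 ^ n
    = ((1 + e) / 2) ^ P.card * ((1 - e) / 2) ^ N.card := by
  have h := avg_ind_mul P N (fun _ s => 1 + e * ((s : ℤ) : ℝ))
  rw [h]
  have e2 : ∀ i : Fin n, (((if i ∈ N then 0 else 1) * (1 + e * (((1:ℤˣ) : ℤ) : ℝ))
      + (if i ∈ P then 0 else 1) * (1 + e * (((-1:ℤˣ) : ℤ) : ℝ))) / 2 : ℝ)
      = (if i ∈ P then ((1 + e) / 2) else 1) * (if i ∈ N then ((1 - e) / 2) else 1) := by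
    intro i
    have hdis : i ∈ P → i ∉ N := fun h1 h2 => (Finset.disjoint_left.1 hPN) h1 h2
    by_cases hP : i ∈ P
    · have hN := hdis hP
      simp [hP, hN]
    · by_cases hN : i ∈ N
      · simp [hP, hN]; ring
      · simp [hP, hN]; ring
  rw [Finset.prod_congr rfl (fun i _ => e2 i), Finset.prod_mul_distrib,
    prod_ite_const, prod_ite_const]

lemma avg_ind_char {n : ℕ} (P N S : Finset (Fin n)) (k : Fin n) (hk : k ∈ S) (hP : k ∉ P)
    (hN : k ∉ N) :
    (∑ x : Fin n → ℤˣ, (if ((∀ i ∈ P, x i = 1) ∧ (∀ i ∈ N, x i = -1)) then (1 : ℝ) else 0)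
      * ∏ i ∈ S, ((x i : ℤ) : ℝ)) / 2 ^ n = 0 := by
  have h := avg_ind_mul P N (fun i s => if i ∈ S then ((s : ℤ) : ℝ) else 1)
  have e1 : ∀ x : Fin n → ℤˣ, ∏ i, (if i ∈ S then ((x i : ℤ) : ℝ) else 1)
      = ∏ i ∈ S, ((x i : ℤ) : ℝ) := by
    intro x
    rw [Finset.prod_ite_mem, Finset.univ_inter]
  simp only [e1] at h
  rw [h]
  apply Finset.prod_eq_zero (Finset.mem_univ k)
  simp [hk, hP, hN]


lemma val_eq (u : ℤˣ) : ((u : ℤ) : ℝ) = 2 * (if u = 1 then (1:ℝ) else 0) - 1 := by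
  rcases Int.units_eq_one_or u with h | h
  · subst h; norm_num
  · subst h
    have : ¬ ((-1 : ℤˣ) = 1) := by decide
    simp [this]

lemma avg_coord (n : ℕ) (k : Fin n) :
    (∑ x : Fin n → ℤˣ, ((x k : ℤ) : ℝ)) / 2 ^ n = 0 := by
  have h := avg_ind_coord (∅ : Finset (Fin n)) ∅ (by simp) k
  simpa using h

lemma avg_char (n : ℕ) (S : Finset (Fin n)) (k : Fin n) (hk : k ∈ S) :
    (∑ x : Fin n → ℤˣ, ∏ i ∈ S, ((x i : ℤ) : ℝ)) / 2 ^ n = 0 := by
  have h := avg_ind_char (∅ : Finset (Fin n)) ∅ S k hk (by simp) (by simp)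
  simpa using h

lemma avg_bias (n : ℕ) (e : ℝ) :
    (∑ x : Fin n → ℤˣ, ∏ i, (1 + e * ((x i : ℤ) : ℝ))) / 2 ^ n = 1 := by
  have h := avg_ind_bias (∅ : Finset (Fin n)) ∅ (by simp) e
  simpa using h

/-- expansion of an average of `f * g` through the conical representation -/
lemma avg_expand {n : ℕ} (f : (Fin n → ℤˣ) → ℤˣ)
    {ι : Type} [Fintype ι] (P N : ι → Finset (Fin n)) (w : ι → ℝ)
    (hrep : ∀ x, (if f x = 1 then (1:ℝ) else 0) =
        ∑ j, w j * (if ((∀ i ∈ P j, x i = 1) ∧ (∀ i ∈ N j, x i = -1)) then (1:ℝ) else 0))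
    (g : (Fin n → ℤˣ) → ℝ) :
    (∑ x, (if f x = 1 then (1:ℝ) else 0) * g x) / 2 ^ n
    = ∑ j, w j * ((∑ x, (if ((∀ i ∈ P j, x i = 1) ∧ (∀ i ∈ N j, x i = -1)) then (1:ℝ) else 0)
        * g x) / 2 ^ n) := by
  simp_rw [hrep, Finset.sum_mul, mul_div_assoc', Finset.mul_sum]
  rw [Finset.sum_comm, Finset.sum_div]
  apply Finset.sum_congr rfl
  intro j _
  congr 1
  apply Finset.sum_congr rfl
  intro x _
  ring

lemma avg_f {n : ℕ} (f : (Fin n → ℤˣ) → ℤˣ) (g : (Fin n → ℤˣ) → ℝ) :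
    (∑ x, ((f x : ℤ) : ℝ) * g x) / 2 ^ n
    = 2 * ((∑ x, (if f x = 1 then (1:ℝ) else 0) * g x) / 2 ^ n) - (∑ x, g x) / 2 ^ n := by
  have : ∀ x, ((f x : ℤ) : ℝ) * g x = 2 * ((if f x = 1 then (1:ℝ) else 0) * g x) - g x := by
    intro x
    rw [val_eq (f x)]; ring
  simp_rw [this]
  rw [Finset.sum_sub_distrib, ← Finset.mul_sum]
  ring

theorem conical_junta (n d : ℕ) (hd : 1 ≤ d) (f : (Fin n → ℤˣ) → ℤˣ)
    (ι : Type) [Fintype ι] (P N : ι → Finset (Fin n)) (w : ι → ℝ)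
    (hw : ∀ j, 0 ≤ w j)
    (hPN : ∀ j, Disjoint (P j) (N j))
    (hwidth : ∀ j, (P j).card + (N j).card ≤ d)
    (hrep : ∀ x, (if f x = 1 then (1:ℝ) else 0) =
        ∑ j, w j * (if ((∀ i ∈ P j, x i = 1) ∧ (∀ i ∈ N j, x i = -1)) then (1:ℝ) else 0)) :
    (∀ S : Finset (Fin n), d < S.card →
        (∑ x, ((f x : ℤ) : ℝ) * ∏ i ∈ S, ((x i : ℤ) : ℝ)) / 2 ^ n = 0) ∧
    ∑ i, (∑ x, ((f x : ℤ) : ℝ) * ((x i : ℤ) : ℝ)) / 2 ^ n ≤ (4 / Real.exp 1) * Real.sqrt d := by
  constructor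
  · intro S hS
    rw [avg_f, avg_expand f P N w hrep]
    have hne : S.Nonempty := by
      rw [← Finset.card_pos]; omega
    obtain ⟨k0, hk0⟩ := hne
    rw [avg_char n S k0 hk0]
    have : ∀ j, w j * ((∑ x : Fin n → ℤˣ,
        (if ((∀ i ∈ P j, x i = 1) ∧ (∀ i ∈ N j, x i = -1)) then (1:ℝ) else 0)
        * ∏ i ∈ S, ((x i : ℤ) : ℝ)) / 2 ^ n) = 0 := by
      intro j
      have hex : ∃ k ∈ S, k ∉ P j ∪ N j := by
        by_contra hcon
        have hsub : S ⊆ P j ∪ N j := by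
          intro k hk
          by_contra hk2
          exact hcon ⟨k, hk, hk2⟩
        have h1 := Finset.card_le_card hsub
        have h2 := Finset.card_union_le (P j) (N j)
        have h3 := hwidth j
        omega
      obtain ⟨k, hk, hk2⟩ := hex
      rw [Finset.mem_union, not_or] at hk2
      rw [avg_ind_char (P j) (N j) S k hk hk2.1 hk2.2, mul_zero]
    rw [Finset.sum_congr rfl (fun j _ => this j)]
    simp
  · -- level one sum
    have hE : 0 < Real.exp 1 := Real.exp_pos 1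
    have hd' : (1:ℝ) ≤ d := by exact_mod_cast hd
    have hr1 : 1 ≤ Real.sqrt d := by
      rw [show (1:ℝ) = Real.sqrt 1 by simp]
      exact Real.sqrt_le_sqrt hd'
    have hr0 : 0 < Real.sqrt d := by linarith
    set e := 1 / Real.sqrt d with he
    have he0 : 0 < e := by positivity
    have he1 : e ≤ 1 := by rw [he, div_le_one hr0]; exact hr1
    have hL : ∑ i, (∑ x, ((f x : ℤ) : ℝ) * ((x i : ℤ) : ℝ)) / 2 ^ n
        = 2 * ∑ j, w j * ((((P j).card : ℝ) - (N j).card) * (1/2:ℝ) ^ ((P j).card + (N j).card)) := by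
      have h1 : ∀ i : Fin n, (∑ x, ((f x : ℤ) : ℝ) * ((x i : ℤ) : ℝ)) / 2 ^ n
          = 2 * ∑ j, w j * (((if i ∈ P j then 1 else 0) - (if i ∈ N j then 1 else 0))
            * (1/2 : ℝ) ^ ((P j).card + (N j).card)) := by
        intro i
        rw [avg_f, avg_expand f P N w hrep, avg_coord, sub_zero]
        congr 1
        apply Finset.sum_congr rfl
        intro j _
        rw [avg_ind_coord (P j) (N j) (hPN j) i]
      simp_rw [h1]
      rw [← Finset.mul_sum, Finset.sum_comm]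
      congr 1
      apply Finset.sum_congr rfl
      intro j _
      rw [← Finset.mul_sum, ← Finset.sum_mul, Finset.sum_sub_distrib]
      simp
    rw [hL]
    -- biased measure bound
    have hW : ∀ x : Fin n → ℤˣ, 0 ≤ ∏ i, (1 + e * ((x i : ℤ) : ℝ)) := by
      intro x
      apply Finset.prod_nonneg
      intro i _
      rcases Int.units_eq_one_or (x i) with h | h
      · rw [h]; simp; linarith
      · rw [h]; simp; linarith
    have hB : ∑ j, w j * (((1 + e) / 2) ^ (P j).card * ((1 - e) / 2) ^ (N j).card) ≤ 1 := by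
      have h1 := avg_expand f P N w hrep (fun x => ∏ i, (1 + e * ((x i : ℤ) : ℝ)))
      have h2 : ∑ j, w j * (((1 + e) / 2) ^ (P j).card * ((1 - e) / 2) ^ (N j).card)
          = (∑ x, (if f x = 1 then (1:ℝ) else 0) * ∏ i, (1 + e * ((x i : ℤ) : ℝ))) / 2 ^ n := by
        rw [h1]
        apply Finset.sum_congr rfl
        intro j _
        rw [avg_ind_bias (P j) (N j) (hPN j) e]
      rw [h2]
      refine le_trans ?_ (le_of_eq (avg_bias n e))
      apply div_le_div_of_nonneg_right _ (by positivity)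
      apply Finset.sum_le_sum
      intro x _
      split_ifs
      · rw [one_mul]
      · rw [zero_mul]; exact hW x
    have hterm : ∀ j, w j * ((((P j).card : ℝ) - (N j).card) * (1/2:ℝ) ^ ((P j).card + (N j).card))
        ≤ (2 / Real.exp 1 * Real.sqrt d) *
          (w j * (((1 + e) / 2) ^ (P j).card * ((1 - e) / 2) ^ (N j).card)) := by
      intro j
      have h1 := term_bound (P j).card (N j).card d hd (hwidth j)
      rw [← he] at h1
      have h2 : ((1 + e) / 2) ^ (P j).card * ((1 - e) / 2) ^ (N j).card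
          = ((1 + e) ^ (P j).card * (1 - e) ^ (N j).card) * (1/2:ℝ) ^ ((P j).card + (N j).card) := by
        rw [div_pow, div_pow, pow_add, one_div, inv_pow, inv_pow]
        field_simp
      rw [h2]
      have h3 : (0:ℝ) ≤ (1/2:ℝ) ^ ((P j).card + (N j).card) := by positivity
      have h4 := mul_le_mul_of_nonneg_right h1 h3
      have h5 := mul_le_mul_of_nonneg_left h4 (hw j)
      calc w j * ((((P j).card : ℝ) - (N j).card) * (1/2:ℝ) ^ ((P j).card + (N j).card))
          ≤ w j * (2 / Real.exp 1 * Real.sqrt d * ((1 + e) ^ (P j).card * (1 - e) ^ (N j).card)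
            * (1/2:ℝ) ^ ((P j).card + (N j).card)) := h5
        _ = _ := by ring
    have hsum := Finset.sum_le_sum (fun j (_ : j ∈ Finset.univ) => hterm j)
    rw [← Finset.mul_sum] at hsum
    have hc : 0 ≤ 2 / Real.exp 1 * Real.sqrt d := by positivity
    have h6 := mul_le_mul_of_nonneg_left hB hc
    have h7 : (4 / Real.exp 1) * Real.sqrt d = 2 * (2 / Real.exp 1 * Real.sqrt d * 1) := by ring
    rw [h7]
    linarith

end Vale.Agent.Lib.P047.Conical
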