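import Vale.Agent.Lib.P047.Fourier

open Finset BigOperators

namespace Vale.Agent.Lib.P047

/-- the function on nine variables that takes the value `-1` exactly on the nine pairwise disjoint
subcubes `x k = 1, x (k+5) = x (k+6) = x (k+7) = x (k+8) = -1` (indices mod 9) -/
def T9 (x : Fin 9 → ℤˣ) : ℤˣ :=
  if ∃ k : Fin 9, x k = 1 ∧ x (k + 5) = -1 ∧ x (k + 6) = -1 ∧ x (k + 7) = -1 ∧ x (k + 8) = -1
  then -1 else 1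

lemma T9_lin : ∀ i : Fin 9, ∑ x : Fin 9 → ℤˣ, ((T9 x : ℤˣ) : ℤ) * ((x i : ℤˣ) : ℤ) = 96 := by
  decide +kernel

lemma T9_mean : ∑ x : Fin 9 → ℤˣ, ((T9 x : ℤˣ) : ℤ) = 224 := by
  decide +kernel

lemma T9_deg : ∀ S : Finset (Fin 9), 5 < S.card →
    ∑ x : Fin 9 → ℤˣ, ((T9 x : ℤˣ) : ℤ) * ∏ i ∈ S, ((x i : ℤˣ) : ℤ) = 0 := by
  decide +kernel

lemma fc_T9_deg (S : Finset (Fin 9)) (hS : 5 < S.card) : fc T9 S = 0 := by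
  rw [fc_fin]
  have h := T9_deg S hS
  have h2 : (∑ x : Fin 9 → ℤˣ, ((T9 x : ℤ) : ℝ) * ∏ i ∈ S, ((x i : ℤ) : ℝ))
      = ((∑ x : Fin 9 → ℤˣ, ((T9 x : ℤˣ) : ℤ) * ∏ i ∈ S, ((x i : ℤˣ) : ℤ) : ℤ) : ℝ) := by
    push_cast
    rfl
  rw [h2, h]
  simp

lemma fc_T9_single (i : Fin 9) : fc T9 {i} = 3 / 16 := by
  rw [fc_fin_single]
  have h := T9_lin i
  have h3 : (∑ x : Fin 9 → ℤˣ, ((T9 x : ℤ) : ℝ) * ((x i : ℤ) : ℝ))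
      = ((∑ x : Fin 9 → ℤˣ, ((T9 x : ℤˣ) : ℤ) * ((x i : ℤˣ) : ℤ) : ℤ) : ℝ) := by
    push_cast
    rfl
  rw [h3, h]
  norm_num

lemma fc_T9_empty : fc T9 ∅ = 7 / 16 := by
  rw [fc_fin_empty]
  have h := T9_mean
  have h3 : (∑ x : Fin 9 → ℤˣ, ((T9 x : ℤ) : ℝ))
      = ((∑ x : Fin 9 → ℤˣ, ((T9 x : ℤˣ) : ℤ) : ℤ) : ℝ) := by
    push_cast
    rfl
  rw [h3, h]
  norm_num

/-- a Boolean function of degree at most five with level-one sum `17/8` -/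
theorem exists_deg_five : ∃ (N : ℕ) (F : (Fin N → ℤˣ) → ℤˣ),
    (∀ S, 5 < S.card → fc F S = 0) ∧ ∑ i, fc F {i} = 17 / 8 := by
  obtain ⟨N, F, h1, h2⟩ := amplify 9 5 (by decide) T9 fc_T9_deg 1
  refine ⟨N, F, ?_, ?_⟩
  · intro S hS
    exact h1 S (by simpa using hS)
  · rw [h2]
    simp only [fc_T9_single, fc_T9_empty]
    simp
    norm_num

end Vale.Agent.Lib.P047
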