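import Vale.Agent.Lib.P047.Fourier

open Finset BigOperators

namespace Vale.Agent.Lib.P047

section deg4
variable {ι : Type} [Fintype ι] [DecidableEq ι]

/-- flip coordinate `i` -/
def flip (i : ι) (x : ι → ℤˣ) : ι → ℤˣ := Function.update x i (-(x i))

/-- antipodal point -/
def ng (x : ι → ℤˣ) : ι → ℤˣ := fun i => -1 * x i

lemma flip_flip (i : ι) (x : ι → ℤˣ) : flip i (flip i x) = x := by
  funext j
  unfold flip
  by_cases h : j = i
  · subst h; simp
  · simp [h]

lemma flip_same (i : ι) (x : ι → ℤˣ) : flip i x i = -(x i) := by simp [flip]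

lemma flip_other {i j : ι} (h : j ≠ i) (x : ι → ℤˣ) : flip i x j = x j := by simp [flip, h]

lemma ng_flip (i : ι) (x : ι → ℤˣ) : ng (flip i x) = flip i (ng x) := by
  funext j
  by_cases h : j = i
  · subst h; simp [ng, flip_same]
  · simp [ng, flip_other h]

lemma sg_neg (u : ℤˣ) : sg (-u) = - sg u := by simp [sg]

lemma chi_eq_prod (S : Finset ι) (x : ι → ℤˣ) : chi S x = ∏ i ∈ S, sg (x i) := by
  unfold chi
  rw [Finset.prod_ite_mem, Finset.univ_inter]

lemma inversion (f : (ι → ℤˣ) → ℤˣ) (x : ι → ℤˣ) : sg (f x) = ∑ S, fc f S * chi S x := by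
  rw [point_expand f x]
  have h1 : ∀ y : ι → ℤˣ, ∏ i, ((1 + sg (y i) * sg (x i)) / 2)
      = (∑ S, chi S y * chi S x) / 2 ^ Fintype.card ι := by
    intro y
    rw [Finset.prod_div_distrib, Finset.prod_one_add, Finset.powerset_univ, Finset.prod_const,
      Finset.card_univ]
    congr 1
    apply Finset.sum_congr rfl
    intro S _
    rw [Finset.prod_mul_distrib, chi_eq_prod, chi_eq_prod]
  simp_rw [h1]
  unfold fc avg
  simp_rw [Finset.sum_div, Finset.mul_sum, Finset.sum_mul]
  rw [Finset.sum_comm]
  apply Finset.sum_congr rfl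
  intro S _
  apply Finset.sum_congr rfl
  intro y _
  ring

lemma chi_flip (S : Finset ι) (i : ι) (x : ι → ℤˣ) :
    chi S (flip i x) = (if i ∈ S then -1 else 1) * chi S x := by
  unfold chi
  have h : ∀ j, (if j ∈ S then sg (flip i x j) else 1)
      = (if j = i then (if i ∈ S then (-1 : ℝ) else 1) else 1) * (if j ∈ S then sg (x j) else 1) := by
    intro j
    by_cases hj : j = i
    · subst hj
      by_cases hS : j ∈ S
      · simp [hS, flip_same, sg_neg]
      · simp [hS]
    · simp [hj, flip_other hj]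
  rw [Finset.prod_congr rfl (fun j _ => h j), Finset.prod_mul_distrib]
  simp

lemma chi_ng (S : Finset ι) (x : ι → ℤˣ) : chi S (ng x) = (-1) ^ S.card * chi S x := by
  unfold ng
  rw [chi_smul]
  simp

/-- the sensitive coordinates of `f` at `x` -/
def sens (f : (ι → ℤˣ) → ℤˣ) (x : ι → ℤˣ) : Finset ι :=
  Finset.univ.filter (fun i => f (flip i x) ≠ f x)

lemma mem_sens (f : (ι → ℤˣ) → ℤˣ) (x : ι → ℤˣ) (i : ι) : i ∈ sens f x ↔ f (flip i x) ≠ f x := by
  simp [sens]

lemma mem_sens_flip (f : (ι → ℤˣ) → ℤˣ) (x : ι → ℤˣ) (i : ι) :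
    i ∈ sens f (flip i x) ↔ i ∈ sens f x := by
  rw [mem_sens, mem_sens, flip_flip]
  exact ne_comm

lemma units_ne (u v : ℤˣ) (h : u ≠ v) : u = -v := by
  rcases Int.units_eq_one_or u with h1 | h1 <;> rcases Int.units_eq_one_or v with h2 | h2 <;>
    simp_all

lemma lap (f : (ι → ℤˣ) → ℤˣ) (x : ι → ℤˣ) :
    sg (f x) * ((sens f x).card : ℝ) = ∑ S, (S.card : ℝ) * (fc f S * chi S x) := by
  have h1 : ∑ i, (sg (f x) - sg (f (flip i x))) / 2 = sg (f x) * ((sens f x).card : ℝ) := by
    have : ∀ i, (sg (f x) - sg (f (flip i x))) / 2 = if i ∈ sens f x then sg (f x) else 0 := by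
      intro i
      split_ifs with h
      · rw [mem_sens] at h
        rw [units_ne _ _ h, sg_neg]; ring
      · rw [mem_sens, not_not] at h
        rw [h]; ring
    rw [Finset.sum_congr rfl (fun i _ => this i), Finset.sum_ite_mem, Finset.univ_inter,
      Finset.sum_const, nsmul_eq_mul]
    ring
  rw [← h1]
  have h2 : ∀ i, (sg (f x) - sg (f (flip i x))) / 2
      = ∑ S, (if i ∈ S then 1 else 0) * (fc f S * chi S x) := by
    intro i
    rw [inversion f x, inversion f (flip i x), ← Finset.sum_sub_distrib, Finset.sum_div]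
    apply Finset.sum_congr rfl
    intro S _
    rw [chi_flip]
    split_ifs <;> ring
  rw [Finset.sum_congr rfl (fun i _ => h2 i), Finset.sum_comm]
  apply Finset.sum_congr rfl
  intro S _
  rw [← Finset.sum_mul]
  congr 1
  simp

lemma lin (f : (ι → ℤˣ) → ℤˣ) (y : ι → ℤˣ) :
    ∑ i, sg (y i) * fc f {i} = ∑ S, (if S.card = 1 then 1 else 0) * (fc f S * chi S y) := by
  have h : (Finset.univ.filter (fun S : Finset ι => S.card = 1))
      = Finset.univ.map ⟨fun i : ι => ({i} : Finset ι), Finset.singleton_injective⟩ := by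
    ext S
    simp only [Finset.mem_filter, Finset.mem_univ, true_and, Finset.mem_map,
      Function.Embedding.coeFn_mk, Finset.card_eq_one]
    constructor
    · rintro ⟨a, rfl⟩; exact ⟨a, rfl⟩
    · rintro ⟨a, rfl⟩; exact ⟨a, rfl⟩
  simp_rw [ite_mul, one_mul, zero_mul]
  rw [← Finset.sum_filter, h, Finset.sum_map]
  apply Finset.sum_congr rfl
  intro i _
  simp [chi_eq_prod, mul_comm]

/-- the local formula for the level-one form of a function of degree at most four -/
lemma star (f : (ι → ℤˣ) → ℤˣ) (hf : ∀ S, 4 < S.card → fc f S = 0) (y : ι → ℤˣ) :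
    4 * ∑ i, sg (y i) * fc f {i}
      = 3 * (sg (f y) - sg (f (ng y))) - sg (f y) * ((sens f y).card : ℝ)
        + sg (f (ng y)) * ((sens f (ng y)).card : ℝ) := by
  rw [lap, lap, lin, inversion f y, inversion f (ng y), Finset.mul_sum, ← Finset.sum_sub_distrib,
    Finset.mul_sum, ← Finset.sum_sub_distrib, ← Finset.sum_add_distrib]
  apply Finset.sum_congr rfl
  intro S _
  rw [chi_ng]
  by_cases h : 4 < S.card
  · rw [hf S h]; ring
  · have h4 : S.card ≤ 4 := not_lt.1 h
    generalize S.card = k at h4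
    interval_cases k <;> norm_num <;> ring

lemma avg_flip (i : ι) (F : (ι → ℤˣ) → ℝ) : avg (fun x => F (flip i x)) = avg F := by
  unfold avg
  congr 1
  exact Fintype.sum_equiv (Function.Involutive.toPerm (flip i) (flip_flip i)) _ _ (fun x => rfl)

lemma avg_update (i : ι) (b : ℤˣ) (F : (ι → ℤˣ) → ℝ) :
    avg (fun x => F (Function.update x i b)) = avg F + sg b * avg (fun x => F x * sg (x i)) := by
  have hp : ∀ x : ι → ℤˣ, F (Function.update x i b)
      = (F x * (1 + sg b * sg (x i)) + F (flip i x) * (1 + sg b * sg (flip i x i))) / 2 := by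
    intro x
    rw [flip_same, sg_neg]
    by_cases h : x i = b
    · have e : Function.update x i b = x := by rw [← h]; exact Function.update_eq_self i x
      have e2 : sg b * sg b = 1 := sg_sq b
      rw [e, h]
      linear_combination (F (flip i x) / 2 - F x / 2) * e2
    · have hb : b = -(x i) := by
        have := units_ne _ _ h
        rw [this]; simp
      have e : Function.update x i b = flip i x := by rw [hb]; rfl
      have e2 : sg b * sg (x i) = -1 := by rw [hb, sg_neg, neg_mul, sg_sq]
      rw [e]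
      linear_combination (F (flip i x) / 2 - F x / 2) * e2
  have h1 := avg_flip i (fun x => F x * (1 + sg b * sg (x i)))
  unfold avg at *
  simp_rw [hp]
  rw [← Finset.sum_div, Finset.sum_add_distrib]
  have h2 : ∑ x, F (flip i x) * (1 + sg b * sg (flip i x i)) = ∑ x, F x * (1 + sg b * sg (x i)) := by
    have hpos : (2 : ℝ) ^ Fintype.card ι ≠ 0 := by positivity
    field_simp at h1
    exact h1
  rw [h2]
  have h3 : ∑ x, F x * (1 + sg b * sg (x i)) = ∑ x, F x + sg b * ∑ x, F x * sg (x i) := by
    rw [Finset.mul_sum, ← Finset.sum_add_distrib]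
    apply Finset.sum_congr rfl
    intro x _
    ring
  rw [h3]
  ring

lemma chi_update {T : Finset ι} {i : ι} (h : i ∉ T) (b : ℤˣ) (x : ι → ℤˣ) :
    chi T (Function.update x i b) = chi T x := by
  rw [chi_eq_prod, chi_eq_prod]
  apply Finset.prod_congr rfl
  intro j hj
  have : j ≠ i := fun e => h (e ▸ hj)
  rw [Function.update_of_ne this]

lemma chi_insert {T : Finset ι} {i : ι} (h : i ∉ T) (x : ι → ℤˣ) :
    chi (insert i T) x = chi T x * sg (x i) := by
  rw [chi_eq_prod, chi_eq_prod, Finset.prod_insert h, mul_comm]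

/-- restriction of the variable `i` to the value `b` (kept as a function on the same cube) -/
def fix (i : ι) (b : ℤˣ) (f : (ι → ℤˣ) → ℤˣ) : (ι → ℤˣ) → ℤˣ := fun x => f (Function.update x i b)

lemma fc_fix_not_mem (f : (ι → ℤˣ) → ℤˣ) (i : ι) (b : ℤˣ) {T : Finset ι} (h : i ∉ T) :
    fc (fix i b f) T = fc f T + sg b * fc f (insert i T) := by
  have h1 := avg_update i b (fun x => sg (f x) * chi T x)
  unfold fc fix
  simp_rw [chi_update h] at h1
  rw [h1]
  congr 3
  funext x
  rw [chi_insert h]; ring

lemma fix_flip (f : (ι → ℤˣ) → ℤˣ) (i : ι) (b : ℤˣ) (x : ι → ℤˣ) :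
    fix i b f (flip i x) = fix i b f x := by
  unfold fix flip
  rw [Function.update_idem]

lemma fc_fix_mem (f : (ι → ℤˣ) → ℤˣ) (i : ι) (b : ℤˣ) {T : Finset ι} (h : i ∈ T) :
    fc (fix i b f) T = 0 := by
  have h1 := avg_flip i (fun x => sg (fix i b f x) * chi T x)
  simp_rw [fix_flip, chi_flip, if_pos h] at h1
  have h2 : avg (fun x => sg (fix i b f x) * (-1 * chi T x))
      = -1 * avg (fun x => sg (fix i b f x) * chi T x) := by
    rw [← avg_mul_left]
    congr 1
    funext x
    ring
  rw [h2] at h1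
  unfold fc
  linarith

lemma deg_fix (f : (ι → ℤˣ) → ℤˣ) (d : ℕ) (hf : ∀ S, d < S.card → fc f S = 0) (i : ι) (b : ℤˣ)
    (T : Finset ι) (hT : d < T.card) : fc (fix i b f) T = 0 := by
  by_cases h : i ∈ T
  · exact fc_fix_mem f i b h
  · rw [fc_fix_not_mem f i b h, hf T hT, hf (insert i T) (by rw [Finset.card_insert_of_notMem h]; omega)]
    ring

lemma fix_dep (f : (ι → ℤˣ) → ℤˣ) (V : Finset ι) (hV : ∀ k, k ∉ V → ∀ x, f (flip k x) = f x)
    (i : ι) (b : ℤˣ) : ∀ k, k ∉ V.erase i → ∀ x, fix i b f (flip k x) = fix i b f x := by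
  intro k hk x
  by_cases h : k = i
  · subst h; exact fix_flip f k b x
  · have hk' : k ∉ V := fun e => hk (Finset.mem_erase.2 ⟨h, e⟩)
    unfold fix
    have : Function.update (flip k x) i b = flip k (Function.update x i b) := by
      unfold flip
      rw [Function.update_of_ne h, Function.update_comm h]
    rw [this, hV k hk']

lemma half_sum (f : (ι → ℤˣ) → ℤˣ) (i j : ι) (h : j ≠ i) :
    fc f {j} = (fc (fix i 1 f) {j} + fc (fix i (-1) f) {j}) / 2 := by
  have hi : i ∉ ({j} : Finset ι) := by simp [Ne.symm h]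
  rw [fc_fix_not_mem f i 1 hi, fc_fix_not_mem f i (-1) hi]
  simp
  ring

lemma lin_flip (c : ι → ℝ) (i : ι) (y : ι → ℤˣ) :
    ∑ j, sg (flip i y j) * c j = ∑ j, sg (y j) * c j - 2 * (sg (y i) * c i) := by
  rw [← Finset.add_sum_erase _ _ (Finset.mem_univ i), ← Finset.add_sum_erase (a := i) _ (fun j => sg (y j) * c j) (Finset.mem_univ i)]
  have : ∑ j ∈ Finset.univ.erase i, sg (flip i y j) * c j = ∑ j ∈ Finset.univ.erase i, sg (y j) * c j := by
    apply Finset.sum_congr rfl
    intro j hj
    rw [flip_other (Finset.ne_of_mem_erase hj)]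
  rw [this, flip_same, sg_neg]
  ring

lemma key (f : (ι → ℤˣ) → ℤˣ) (hf : ∀ S, 4 < S.card → fc f S = 0) (y : ι → ℤˣ) (i : ι)
    (h1 : f (flip i y) = 1) (h2 : f (flip i (ng y)) = -1) :
    4 * (∑ j, sg (y j) * fc f {j} - 2 * (sg (y i) * fc f {i}))
      = 6 - ((sens f (flip i y)).card : ℝ) - ((sens f (flip i (ng y))).card : ℝ) := by
  have h := star f hf (flip i y)
  rw [lin_flip (fun j => fc f {j}), ng_flip, h1, h2] at h
  rw [h]
  simp
  ring

lemma one_le_card_sens (f : (ι → ℤˣ) → ℤˣ) (x : ι → ℤˣ) (i : ι) (h : i ∈ sens f x) :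
    (1 : ℝ) ≤ ((sens f (flip i x)).card : ℝ) := by
  have : 0 < (sens f (flip i x)).card := Finset.card_pos.2 ⟨i, (mem_sens_flip f x i).2 h⟩
  exact_mod_cast this

theorem level_one_aux (V : Finset ι) : ∀ f : (ι → ℤˣ) → ℤˣ, (∀ S, 4 < S.card → fc f S = 0) →
    (∀ k, k ∉ V → ∀ x, f (flip k x) = f x) → ∑ i, |fc f {i}| ≤ 7 / 4 := by
  induction V using Finset.strongInduction with
  | H V ih =>
    intro f hf hV
    obtain ⟨y, hya⟩ : ∃ y : ι → ℤˣ, ∀ i, sg (y i) * fc f {i} = |fc f {i}| := by
      refine ⟨fun i => if 0 ≤ fc f {i} then 1 else -1, ?_⟩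
      intro i
      by_cases h : 0 ≤ fc f {i}
      · simp [h, abs_of_nonneg h]
      · simp [h, abs_of_neg (not_le.1 h)]
    set L := ∑ i, |fc f {i}| with hL
    have hLy : ∑ j, sg (y j) * fc f {j} = L := Finset.sum_congr rfl (fun j _ => hya j)
    have ha0 : ∀ i, 0 ≤ |fc f {i}| := fun i => abs_nonneg _
    have hsub : ∀ I : Finset ι, ∑ i ∈ I, |fc f {i}| ≤ L := fun I =>
      Finset.sum_le_sum_of_subset_of_nonneg (Finset.subset_univ I) (fun i _ _ => ha0 i)
    have hlow : ∀ (I : Finset ι) (c : ℝ), (∀ i ∈ I, c ≤ |fc f {i}|) → (I.card : ℝ) * c ≤ L := by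
      intro I c hc
      have := Finset.card_nsmul_le_sum I (fun i => |fc f {i}|) c hc
      rw [nsmul_eq_mul] at this
      exact le_trans this (hsub I)
    have hstar := star f hf y
    rw [hLy] at hstar
    have hkey : ∀ i, f (flip i y) = 1 → f (flip i (ng y)) = -1 →
        4 * (L - 2 * |fc f {i}|)
          = 6 - ((sens f (flip i y)).card : ℝ) - ((sens f (flip i (ng y))).card : ℝ) := by
      intro i h1 h2
      have := key f hf y i h1 h2
      rwa [hLy, hya] at this
    by_contra hcon
    have hL74 : 7 / 4 < L := not_le.1 hcon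
    have hA0 : (0 : ℝ) ≤ ((sens f y).card : ℝ) := Nat.cast_nonneg _
    have hB0 : (0 : ℝ) ≤ ((sens f (ng y)).card : ℝ) := Nat.cast_nonneg _
    rcases Int.units_eq_one_or (f y) with hu | hu <;>
      rcases Int.units_eq_one_or (f (ng y)) with hv | hv
    · -- (1, 1)
      rw [hu, hv] at hstar
      simp only [sg_one] at hstar
      have hc : ((sens f (ng y)).card : ℝ) ≤ ((sens f (ng y) \ sens f y).card : ℝ) + ((sens f y).card : ℝ) := by
        exact_mod_cast Finset.card_le_card_sdiff_add_card
      have hb : ∀ i ∈ sens f (ng y) \ sens f y, (4 * L - 5) / 8 ≤ |fc f {i}| := by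
        intro i hi
        rw [Finset.mem_sdiff] at hi
        have h1 : f (flip i y) = 1 := by
          have := hi.2
          rw [mem_sens, not_not] at this
          rw [this, hu]
        have h2 : f (flip i (ng y)) = -1 := by
          have := hi.1
          rw [mem_sens] at this
          rw [units_ne _ _ this, hv]
        have h3 := hkey i h1 h2
        have h4 := one_le_card_sens f (ng y) i hi.1
        have h5 : (0 : ℝ) ≤ ((sens f (flip i y)).card : ℝ) := Nat.cast_nonneg _
        linarith
      have h6 := hlow _ _ hb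
      set c := ((sens f (ng y) \ sens f y).card : ℝ) with hcdef
      have h7 : 0 ≤ c - 4 * L := by linarith
      nlinarith [mul_nonneg h7 (by linarith : (0 : ℝ) ≤ 4 * L - 5),
        mul_pos (by linarith : (0 : ℝ) < L) (by linarith : (0 : ℝ) < 4 * L - 7)]
    · -- (1, -1)
      rw [hu, hv] at hstar
      simp only [sg_one, sg_neg_one] at hstar
      linarith
    · -- (-1, 1)
      rw [hu, hv] at hstar
      simp only [sg_one, sg_neg_one] at hstar
      have hih : ∀ i ∈ V, L - |fc f {i}| ≤ 7 / 4 := by
        intro i hi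
        have e1 := ih (V.erase i) (Finset.erase_ssubset hi) (fix i 1 f) (deg_fix f 4 hf i 1)
          (fix_dep f V hV i 1)
        have e2 := ih (V.erase i) (Finset.erase_ssubset hi) (fix i (-1) f) (deg_fix f 4 hf i (-1))
          (fix_dep f V hV i (-1))
        have e3 : L - |fc f {i}| = ∑ j ∈ Finset.univ.erase i, |fc f {j}| :=
          (Finset.sum_erase_eq_sub (Finset.mem_univ i)).symm
        have e4 : ∑ j ∈ Finset.univ.erase i, |fc f {j}|
            ≤ ∑ j ∈ Finset.univ.erase i, (|fc (fix i 1 f) {j}| + |fc (fix i (-1) f) {j}|) / 2 := by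
          apply Finset.sum_le_sum
          intro j hj
          rw [half_sum f i j (Finset.ne_of_mem_erase hj), abs_div]
          have := abs_add_le (fc (fix i 1 f) {j}) (fc (fix i (-1) f) {j})
          have h2 : |(2 : ℝ)| = 2 := by norm_num
          rw [h2]
          linarith
        have e5 : ∑ j ∈ Finset.univ.erase i, (|fc (fix i 1 f) {j}| + |fc (fix i (-1) f) {j}|) / 2
            ≤ ∑ j, (|fc (fix i 1 f) {j}| + |fc (fix i (-1) f) {j}|) / 2 :=
          Finset.sum_le_sum_of_subset_of_nonneg (Finset.subset_univ _)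
            (fun j _ _ => by positivity)
        have e6 : ∑ j, (|fc (fix i 1 f) {j}| + |fc (fix i (-1) f) {j}|) / 2
            = (∑ j, |fc (fix i 1 f) {j}| + ∑ j, |fc (fix i (-1) f) {j}|) / 2 := by
          rw [← Finset.sum_div, Finset.sum_add_distrib]
        linarith
      have hAV : sens f y ⊆ V := by
        intro i hi
        by_contra h
        rw [mem_sens] at hi
        exact hi (hV i h y)
      have hBV : sens f (ng y) ⊆ V := by
        intro i hi
        by_contra h
        rw [mem_sens] at hi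
        exact hi (hV i h (ng y))
      have hn1 : 13 < (sens f y).card + (sens f (ng y)).card := by
        have : (13 : ℝ) < ((sens f y).card : ℝ) + ((sens f (ng y)).card : ℝ) := by linarith
        exact_mod_cast this
      have hn2 : (14 : ℝ) ≤ ((sens f y).card : ℝ) + ((sens f (ng y)).card : ℝ) := by
        exact_mod_cast hn1
      have hL2 : 2 ≤ L := by linarith
      have hq : ∀ i ∈ V, (1 / 4 : ℝ) ≤ |fc f {i}| := by
        intro i hi
        have := hih i hi
        linarith
      have hVL := hlow V _ hq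
      have hn3 : V.card + 6 ≤ (sens f y).card + (sens f (ng y)).card := by
        have : (V.card : ℝ) + 6 ≤ ((sens f y).card : ℝ) + ((sens f (ng y)).card : ℝ) := by linarith
        exact_mod_cast this
      have hn4 := Finset.card_union_add_card_inter (sens f y) (sens f (ng y))
      have hn5 : (sens f y ∪ sens f (ng y)).card ≤ V.card :=
        Finset.card_le_card (Finset.union_subset hAV hBV)
      have hn6 : 6 ≤ (sens f y ∩ sens f (ng y)).card := by omega
      have hn7 : (6 : ℝ) ≤ ((sens f y ∩ sens f (ng y)).card : ℝ) := by exact_mod_cast hn6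
      have hb : ∀ i ∈ sens f y ∩ sens f (ng y), (4 * L - 4) / 8 ≤ |fc f {i}| := by
        intro i hi
        rw [Finset.mem_inter] at hi
        have h1 : f (flip i y) = 1 := by
          have := hi.1
          rw [mem_sens] at this
          rw [units_ne _ _ this, hu]; simp
        have h2 : f (flip i (ng y)) = -1 := by
          have := hi.2
          rw [mem_sens] at this
          rw [units_ne _ _ this, hv]
        have h3 := hkey i h1 h2
        have h4 := one_le_card_sens f (ng y) i hi.2
        have h5 := one_le_card_sens f y i hi.1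
        linarith
      have h6 := hlow _ _ hb
      nlinarith [mul_nonneg (by linarith : (0 : ℝ) ≤ ((sens f y ∩ sens f (ng y)).card : ℝ) - 6)
        (by linarith : (0 : ℝ) ≤ (4 * L - 4) / 8)]
    · -- (-1, -1)
      rw [hu, hv] at hstar
      simp only [sg_neg_one] at hstar
      have hc : ((sens f y).card : ℝ) ≤ ((sens f y \ sens f (ng y)).card : ℝ) + ((sens f (ng y)).card : ℝ) := by
        exact_mod_cast Finset.card_le_card_sdiff_add_card
      have hb : ∀ i ∈ sens f y \ sens f (ng y), (4 * L - 5) / 8 ≤ |fc f {i}| := by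
        intro i hi
        rw [Finset.mem_sdiff] at hi
        have h1 : f (flip i y) = 1 := by
          have := hi.1
          rw [mem_sens] at this
          rw [units_ne _ _ this, hu]; simp
        have h2 : f (flip i (ng y)) = -1 := by
          have := hi.2
          rw [mem_sens, not_not] at this
          rw [this, hv]
        have h3 := hkey i h1 h2
        have h4 := one_le_card_sens f y i hi.1
        have h5 : (0 : ℝ) ≤ ((sens f (flip i (ng y))).card : ℝ) := Nat.cast_nonneg _
        linarith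
      have h6 := hlow _ _ hb
      set c := ((sens f y \ sens f (ng y)).card : ℝ) with hcdef
      have h7 : 0 ≤ c - 4 * L := by linarith
      nlinarith [mul_nonneg h7 (by linarith : (0 : ℝ) ≤ 4 * L - 5),
        mul_pos (by linarith : (0 : ℝ) < L) (by linarith : (0 : ℝ) < 4 * L - 7)]

/-- every Boolean function of degree at most four has level-one sum at most `7/4` -/
theorem level_one_deg_four (f : (ι → ℤˣ) → ℤˣ) (hf : ∀ S, 4 < S.card → fc f S = 0) :
    ∑ i, |fc f {i}| ≤ 7 / 4 :=
  level_one_aux Finset.univ f hf (fun k hk => absurd (Finset.mem_univ k) hk)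

end deg4

end Vale.Agent.Lib.P047
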