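import Mathlib

/-!
# P047: integrating the differential inequality `(1 - t^2) |g'| ≤ d (1 - g^2)`
-/

namespace Vale.Agent.Lib.P047

open Set

lemma alg_envelope (a x y : ℝ) (ha : 1 ≤ a) (hx : 0 < x) (hy : 0 < y)
    (h : (2 - x) * (2 - y) ≤ a ^ 2 * (x * y)) : 4 / (a + 1) ≤ x + y := by
  rw [div_le_iff₀ (by linarith)]
  by_contra hcon
  rw [not_le] at hcon
  set s := (x + y) / 2 with hs
  have hs0 : 0 < s := by positivity
  have h1 : x * y ≤ s ^ 2 := by nlinarith [sq_nonneg (x - y)]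
  have h2 : (a + 1) * s - 2 < 0 := by nlinarith
  have h3 : 0 < (a - 1) * s + 2 := by nlinarith
  have h4 : ((a + 1) * s - 2) * ((a - 1) * s + 2) < 0 := mul_neg_of_neg_of_pos h2 h3
  have h5 : 4 - 4 * s ≤ (a ^ 2 - 1) * (x * y) := by nlinarith
  have h6 : (a ^ 2 - 1) * (x * y) ≤ (a ^ 2 - 1) * s ^ 2 :=
    mul_le_mul_of_nonneg_left h1 (by nlinarith)
  nlinarith

/-- integrated form of the differential inequality -/
theorem envelope (g g' : ℝ → ℝ) (d : ℕ)
    (hder : ∀ t ∈ Ioo (-1:ℝ) 1, HasDerivAt g (g' t) t)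
    (hlt : ∀ t ∈ Ioo (-1:ℝ) 1, |g t| < 1)
    (hineq : ∀ t ∈ Ioo (-1:ℝ) 1, (1 - t ^ 2) * |g' t| ≤ d * (1 - g t ^ 2))
    (τ : ℝ) (h0 : 0 ≤ τ) (h1 : τ < 1) :
    (g τ - g (-τ)) / 2 ≤ 1 - 2 / (((1 + τ) / (1 - τ)) ^ d + 1) := by
  set Θ : ℝ → ℝ := fun t => Real.log (1 + g t) - Real.log (1 - g t)
    - d * Real.log (1 + t) + d * Real.log (1 - t) with hΘ
  set Θ' : ℝ → ℝ := fun t => g' t / (1 + g t) - (- g' t) / (1 - g t)
    - d * (1 / (1 + t)) + d * ((-1) / (1 - t)) with hΘ'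
  have hD : ∀ t ∈ Ioo (-1:ℝ) 1, HasDerivAt Θ (Θ' t) t := by
    intro t ht
    have hg := abs_lt.mp (hlt t ht)
    have a1 : HasDerivAt (fun t => Real.log (1 + g t)) (g' t / (1 + g t)) t :=
      ((hder t ht).const_add 1).log (by linarith [hg.1])
    have a2 : HasDerivAt (fun t => Real.log (1 - g t)) ((- g' t) / (1 - g t)) t :=
      ((hder t ht).const_sub 1).log (by linarith [hg.2])
    have a3 : HasDerivAt (fun t : ℝ => Real.log (1 + t)) (1 / (1 + t)) t :=
      ((hasDerivAt_id t).const_add 1).log (by simp only [id]; linarith [ht.1])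
    have a4 : HasDerivAt (fun t : ℝ => Real.log (1 - t)) ((-1) / (1 - t)) t :=
      ((hasDerivAt_id t).const_sub 1).log (by simp only [id]; linarith [ht.2])
    exact ((a1.sub a2).sub (a3.const_mul (d:ℝ))).add (a4.const_mul (d:ℝ))
  have hneg : ∀ t ∈ Ioo (-1:ℝ) 1, Θ' t ≤ 0 := by
    intro t ht
    have hg := abs_lt.mp (hlt t ht)
    have p1 : 0 < 1 + g t := by linarith [hg.1]
    have p2 : 0 < 1 - g t := by linarith [hg.2]
    have p3 : 0 < 1 + t := by linarith [ht.1]
    have p4 : 0 < 1 - t := by linarith [ht.2]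
    have e1 : Θ' t = 2 * g' t / ((1 + g t) * (1 - g t)) - 2 * d / ((1 + t) * (1 - t)) := by
      simp only [hΘ']
      field_simp
      ring
    rw [e1, sub_nonpos, div_le_div_iff₀ (by positivity) (by positivity)]
    have h2 := hineq t ht
    have h3 : g' t ≤ |g' t| := le_abs_self _
    have h4 : 0 < 1 - t ^ 2 := by nlinarith
    nlinarith
  have hanti : AntitoneOn Θ (Ioo (-1:ℝ) 1) := by
    apply antitoneOn_of_deriv_nonpos (convex_Ioo _ _)
    · intro t ht
      exact (hD t ht).continuousAt.continuousWithinAt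
    · rw [interior_Ioo]
      intro t ht
      exact (hD t ht).differentiableAt.differentiableWithinAt
    · rw [interior_Ioo]
      intro t ht
      rw [(hD t ht).deriv]
      exact hneg t ht
  have m1 : τ ∈ Ioo (-1:ℝ) 1 := ⟨by linarith, h1⟩
  have m2 : -τ ∈ Ioo (-1:ℝ) 1 := ⟨by linarith, by linarith⟩
  have hle := hanti m2 m1 (by linarith)
  have g1 := abs_lt.mp (hlt τ m1)
  have g2 := abs_lt.mp (hlt (-τ) m2)
  have p1 : 0 < 1 + g τ := by linarith [g1.1]
  have p2 : 0 < 1 - g τ := by linarith [g1.2]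
  have p3 : 0 < 1 + g (-τ) := by linarith [g2.1]
  have p4 : 0 < 1 - g (-τ) := by linarith [g2.2]
  have p5 : 0 < 1 + τ := by linarith
  have p6 : 0 < 1 - τ := by linarith
  set a := ((1 + τ) / (1 - τ)) ^ d with ha
  have ha1 : 1 ≤ a := by
    apply one_le_pow₀
    rw [one_le_div p6]
    linarith
  have hloga : Real.log a = d * (Real.log (1 + τ) - Real.log (1 - τ)) := by
    rw [ha, Real.log_pow, Real.log_div p5.ne' p6.ne']
  have hmain : (1 + g τ) * (1 - g (-τ)) ≤ a ^ 2 * ((1 - g τ) * (1 + g (-τ))) := by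
    rw [← Real.log_le_log_iff (by positivity) (by positivity),
      Real.log_mul p1.ne' p4.ne', Real.log_mul (by positivity) (by positivity),
      Real.log_mul p2.ne' p3.ne', Real.log_pow, hloga]
    simp only [hΘ] at hle
    rw [show (1:ℝ) + -τ = 1 - τ by ring, show (1:ℝ) - -τ = 1 + τ by ring] at hle
    push_cast
    linarith
  have hfin := alg_envelope a (1 - g τ) (1 + g (-τ)) ha1 p2 p3 (by
    have : (2 - (1 - g τ)) * (2 - (1 + g (-τ))) = (1 + g τ) * (1 - g (-τ)) := by ring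
    rw [this]; exact hmain)
  have : 2 / (a + 1) = (4 / (a + 1)) / 2 := by ring
  rw [this]
  linarith

end Vale.Agent.Lib.P047
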