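import Mathlib

/-!
# P047: a refined Bernstein inequality at the origin

For a real polynomial `p` of degree at most `2m+2` bounded by one on `[-1,1]`, the linear
coefficient is at most `2m+1` minus an explicit multiple of the defect of the odd part of `p` at
the first node `sin (π / (2 (2m+1)))`.
-/

namespace Vale.Agent.Lib.P047

open Polynomial Finset

/-- the polynomial `q` with `t * q (t^2)` equal to the odd part of `p` -/
noncomputable def oddQ (p : ℝ[X]) (m : ℕ) : ℝ[X] :=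
  ∑ j ∈ range (m + 1), C (p.coeff (2 * j + 1)) * X ^ j

lemma oddQ_degree_lt (p : ℝ[X]) (m : ℕ) : (oddQ p m).degree < ((m + 1 : ℕ) : WithBot ℕ) := by
  rw [Polynomial.degree_lt_iff_coeff_zero]
  intro k hk
  unfold oddQ
  rw [Polynomial.finsetSum_coeff]
  apply Finset.sum_eq_zero
  intro j hj
  rw [Polynomial.coeff_C_mul_X_pow]
  have : j < m + 1 := Finset.mem_range.mp hj
  rw [if_neg (by omega)]

lemma oddQ_eval_zero (p : ℝ[X]) (m : ℕ) : (oddQ p m).eval 0 = p.coeff 1 := by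
  unfold oddQ
  rw [Polynomial.eval_finsetSum, Finset.sum_range_succ']
  simp

lemma odd_sum_aux (c : ℕ → ℝ) (t : ℝ) (M : ℕ) :
    ∑ i ∈ range (2 * M + 1), (c i * t ^ i - c i * (-t) ^ i) / 2
      = ∑ j ∈ range M, c (2 * j + 1) * t ^ (2 * j + 1) := by
  induction M with
  | zero => simp
  | succ M ih =>
    rw [show 2 * (M + 1) + 1 = (2 * M + 1) + 1 + 1 by ring, Finset.sum_range_succ,
      Finset.sum_range_succ, ih, Finset.sum_range_succ]
    have h1 : (-t) ^ (2 * M + 1) = - t ^ (2 * M + 1) := Odd.neg_pow ⟨M, rfl⟩ t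
    have h2 : (-t) ^ (2 * M + 1 + 1) = t ^ (2 * M + 1 + 1) := Even.neg_pow ⟨M + 1, by ring⟩ t
    rw [h1, h2]
    ring

lemma oddQ_eval_sq (p : ℝ[X]) (m : ℕ) (hp : p.natDegree ≤ 2 * m + 2) (t : ℝ) :
    t * (oddQ p m).eval (t ^ 2) = (p.eval t - p.eval (-t)) / 2 := by
  have h1 := Polynomial.eval_eq_sum_range' (p := p) (n := 2 * (m + 1) + 1) (by omega) t
  have h2 := Polynomial.eval_eq_sum_range' (p := p) (n := 2 * (m + 1) + 1) (by omega) (-t)
  rw [h1, h2, ← Finset.sum_sub_distrib, Finset.sum_div, odd_sum_aux]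
  unfold oddQ
  rw [Polynomial.eval_finsetSum, Finset.mul_sum]
  refine Finset.sum_congr rfl (fun j _ => ?_)
  simp only [eval_mul, eval_C, eval_pow, eval_X]
  ring

lemma interp_zero (m : ℕ) (u : ℕ → ℝ) (hu : Set.InjOn u (range (m + 1) : Finset ℕ))
    (q : ℝ[X]) (hq : q.degree < ((m + 1 : ℕ) : WithBot ℕ)) :
    q.eval 0 = ∑ k ∈ range (m + 1), q.eval (u k) *
      ∏ j ∈ (range (m + 1)).erase k, (u j / (u j - u k)) := by
  have h := Lagrange.eq_interpolate (s := range (m + 1)) (v := u) (f := q) hu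
    (by simpa using hq)
  have h2 := congrArg (Polynomial.eval 0) h
  rw [h2, Lagrange.interpolate_apply, Polynomial.eval_finsetSum]
  refine Finset.sum_congr rfl (fun k hk => ?_)
  rw [Polynomial.eval_mul, Polynomial.eval_C, Lagrange.basis, Polynomial.eval_prod]
  congr 1
  refine Finset.prod_congr rfl (fun j hj => ?_)
  have hjk : u k ≠ u j := by
    intro e
    have := hu (Finset.mem_coe.mpr hk) (Finset.mem_coe.mpr (Finset.mem_of_mem_erase hj)) e
    exact (Finset.ne_of_mem_erase hj) this.symm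
  have h3 : u k - u j ≠ 0 := sub_ne_zero.mpr hjk
  have h4 : u j - u k ≠ 0 := sub_ne_zero.mpr hjk.symm
  simp only [Lagrange.basisDivisor, eval_mul, eval_C, eval_sub, eval_X]
  field_simp
  ring

lemma weight_sign (m : ℕ) (u : ℕ → ℝ) (hpos : ∀ k ≤ m, 0 < u k)
    (hmono : ∀ i j, i < j → j ≤ m → u i < u j) (k : ℕ) (hk : k ≤ m) :
    0 < (-1) ^ k * ∏ j ∈ (range (m + 1)).erase k, (u j / (u j - u k)) := by
  have h₁ : 0 < ∏ j ∈ range k, ((-1) * (u j / (u j - u k))) := by
    refine Finset.prod_pos (fun j hj => ?_)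
    have hjk := Finset.mem_range.mp hj
    have h1 := hmono j k hjk hk
    have h2 := hpos j (by omega)
    have : u j / (u j - u k) < 0 := div_neg_of_pos_of_neg h2 (by linarith)
    linarith
  rw [Finset.prod_mul_distrib, Finset.prod_const, Finset.card_range] at h₁
  have h₂ : 0 < ∏ j ∈ Finset.Ioc k m, (u j / (u j - u k)) := by
    refine Finset.prod_pos (fun j hj => ?_)
    have hj' := Finset.mem_Ioc.mp hj
    have h1 := hmono k j hj'.1 hj'.2
    have h2 := hpos j hj'.2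
    exact div_pos h2 (by linarith)
  have union : (range (m + 1)).erase k = (range k) ∪ Finset.Ioc k m := by
    ext j
    simp only [Finset.mem_erase, Finset.mem_range, Finset.mem_union, Finset.mem_Ioc]
    omega
  have disjoint : Disjoint (range k) (Finset.Ioc k m) := by
    rw [Finset.disjoint_left]
    intro j h1 h2
    have := Finset.mem_range.mp h1
    have := (Finset.mem_Ioc.mp h2).1
    omega
  rw [union, Finset.prod_union disjoint, ← mul_assoc]
  exact mul_pos h₁ h₂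

lemma weight_zero_ge (m : ℕ) (u : ℕ → ℝ) (hpos : ∀ k ≤ m, 0 < u k)
    (hmono : ∀ i j, i < j → j ≤ m → u i < u j) :
    1 ≤ ∏ j ∈ (range (m + 1)).erase 0, (u j / (u j - u 0)) := by
  calc (1:ℝ) = ∏ _j ∈ (range (m + 1)).erase 0, (1:ℝ) := by simp
    _ ≤ ∏ j ∈ (range (m + 1)).erase 0, (u j / (u j - u 0)) := by
      refine Finset.prod_le_prod (fun _ _ => zero_le_one) (fun j hj => ?_)
      have hj0 : j ≠ 0 := Finset.ne_of_mem_erase hj
      have hjm : j < m + 1 := Finset.mem_range.mp (Finset.mem_of_mem_erase hj)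
      have h1 := hmono 0 j (by omega) (by omega)
      have h2 := hpos 0 (by omega)
      rw [one_le_div (by linarith)]
      linarith

/-- the nodes -/
noncomputable def nodeT (m k : ℕ) : ℝ := Real.sin ((2 * k + 1) * Real.pi / (2 * (2 * m + 1)))

lemma nodeT_arg_mem (m k : ℕ) (hk : k ≤ m) :
    0 < (2 * (k:ℝ) + 1) * Real.pi / (2 * (2 * m + 1)) ∧
      (2 * (k:ℝ) + 1) * Real.pi / (2 * (2 * m + 1)) ≤ Real.pi / 2 := by
  have hpi := Real.pi_pos
  have hk' : (k:ℝ) ≤ m := by exact_mod_cast hk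
  constructor
  · positivity
  · rw [div_le_div_iff₀ (by positivity) (by norm_num)]
    nlinarith

lemma nodeT_pos (m k : ℕ) (hk : k ≤ m) : 0 < nodeT m k := by
  obtain ⟨h1, h2⟩ := nodeT_arg_mem m k hk
  exact Real.sin_pos_of_pos_of_lt_pi h1 (by linarith [Real.pi_pos])

lemma nodeT_le_one (m k : ℕ) : nodeT m k ≤ 1 := Real.sin_le_one _

lemma nodeT_lt (m i j : ℕ) (hij : i < j) (hj : j ≤ m) : nodeT m i < nodeT m j := by
  obtain ⟨h1, _⟩ := nodeT_arg_mem m i (by omega)
  obtain ⟨_, h4⟩ := nodeT_arg_mem m j hj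
  apply Real.strictMonoOn_sin
  · exact ⟨by linarith [Real.pi_pos], by
      have hij' : (i:ℝ) < j := by exact_mod_cast hij
      have : (2 * (i:ℝ) + 1) * Real.pi / (2 * (2 * m + 1))
          ≤ (2 * (j:ℝ) + 1) * Real.pi / (2 * (2 * m + 1)) := by
        apply div_le_div_of_nonneg_right _ (by positivity)
        nlinarith [Real.pi_pos]
      linarith⟩
  · exact ⟨by
      have : 0 < (2 * (j:ℝ) + 1) * Real.pi / (2 * (2 * m + 1)) := by
        have := Real.pi_pos
        positivity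
      linarith [Real.pi_pos], h4⟩
  · have hij' : (i:ℝ) < j := by exact_mod_cast hij
    apply div_lt_div_of_pos_right _ (by positivity)
    nlinarith [Real.pi_pos]

/-- the comparison polynomial `(-1)^m T_{2m+1}` -/
noncomputable def chebC (m : ℕ) : ℝ[X] := C ((-1) ^ m) * Chebyshev.T ℝ ((2 * m + 1 : ℕ) : ℤ)

lemma chebC_natDegree (m : ℕ) : (chebC m).natDegree ≤ 2 * m + 2 := by
  unfold chebC
  refine le_trans (Polynomial.natDegree_C_mul_le _ _) ?_
  rw [Chebyshev.natDegree_T]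
  omega

lemma chebC_eval_node (m k : ℕ) (hk : k ≤ m) : (chebC m).eval (nodeT m k) = (-1) ^ k := by
  obtain ⟨r, rfl⟩ := Nat.exists_eq_add_of_le hk
  unfold chebC nodeT
  rw [Polynomial.eval_mul, Polynomial.eval_C, ← Real.cos_pi_div_two_sub, Chebyshev.T_real_cos]
  have : (((2 * (k + r) + 1 : ℕ) : ℤ) : ℝ) *
      (Real.pi / 2 - (2 * (k:ℝ) + 1) * Real.pi / (2 * (2 * ((k + r : ℕ) : ℝ) + 1)))
      = (r : ℝ) * Real.pi := by
    push_cast
    field_simp
    ring
  rw [this, Real.cos_nat_mul_pi, pow_add, mul_assoc, ← mul_pow]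
  simp

lemma chebC_eval_neg (m : ℕ) (x : ℝ) : (chebC m).eval (-x) = - (chebC m).eval x := by
  unfold chebC
  rw [Polynomial.eval_mul, Polynomial.eval_mul, Chebyshev.T_eval_neg,
    Int.negOnePow_odd _ (by exact ⟨m, by push_cast; ring⟩)]
  simp

lemma chebC_coeff_one (m : ℕ) : (chebC m).coeff 1 = 2 * m + 1 := by
  unfold chebC
  rw [Polynomial.coeff_C_mul]
  have h1 : (Chebyshev.T ℝ ((2 * m + 1 : ℕ) : ℤ)).coeff 1
      = (derivative (Chebyshev.T ℝ ((2 * m + 1 : ℕ) : ℤ))).eval 0 := by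
    rw [← Polynomial.coeff_zero_eq_eval_zero, Polynomial.coeff_derivative]
    simp
  rw [h1, Chebyshev.T_derivative_eq_U]
  have h2 := Chebyshev.U_real_cos (Real.pi / 2) (((2 * m + 1 : ℕ) : ℤ) - 1)
  rw [Real.cos_pi_div_two, Real.sin_pi_div_two, mul_one] at h2
  have h3 : ((((2 * m + 1 : ℕ) : ℤ) - 1 : ℤ) + 1 : ℝ) * (Real.pi / 2)
      = (m : ℝ) * Real.pi + Real.pi / 2 := by
    push_cast
    ring
  rw [h3, Real.sin_add_pi_div_two, Real.cos_nat_mul_pi] at h2
  rw [Polynomial.eval_mul, h2]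
  have h4 : eval 0 (((2 * m + 1 : ℕ) : ℤ) : ℝ[X]) = 2 * (m:ℝ) + 1 := by
    simp
  rw [h4]
  have h5 : ((-1:ℝ)) ^ m * (-1) ^ m = 1 := by rw [← mul_pow]; simp
  calc (-1:ℝ) ^ m * ((2 * (m:ℝ) + 1) * (-1) ^ m) = ((-1:ℝ) ^ m * (-1) ^ m) * (2 * (m:ℝ) + 1) := by ring
    _ = 2 * (m:ℝ) + 1 := by rw [h5, one_mul]

/-- refined Bernstein inequality at the origin -/
theorem coeff_one_le (m : ℕ) (p : ℝ[X]) (hp : p.natDegree ≤ 2 * m + 2)
    (hb : ∀ x ∈ Set.Icc (-1:ℝ) 1, |p.eval x| ≤ 1) :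
    p.coeff 1 ≤ (2 * m + 1) -
      (1 - (p.eval (nodeT m 0) - p.eval (-(nodeT m 0))) / 2) / nodeT m 0 := by
  set u : ℕ → ℝ := fun k => (nodeT m k) ^ 2 with hu
  have hpos : ∀ k ≤ m, 0 < u k := fun k hk => pow_pos (nodeT_pos m k hk) 2
  have hmono : ∀ i j, i < j → j ≤ m → u i < u j := by
    intro i j hij hj
    have h1 := nodeT_lt m i j hij hj
    have h2 := nodeT_pos m i (by omega)
    exact pow_lt_pow_left₀ h1 h2.le (by norm_num)
  have hinj : Set.InjOn u (range (m + 1) : Finset ℕ) := by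
    intro i hi j hj hij
    have hi' : i < m + 1 := Finset.mem_range.mp (Finset.mem_coe.mp hi)
    have hj' : j < m + 1 := Finset.mem_range.mp (Finset.mem_coe.mp hj)
    rcases lt_trichotomy i j with h | h | h
    · exact absurd hij (ne_of_lt (hmono i j h (by omega)))
    · exact h
    · exact absurd hij.symm (ne_of_lt (hmono j i h (by omega)))
  set W : ℕ → ℝ := fun k => ∏ j ∈ (range (m + 1)).erase k, (u j / (u j - u k)) with hW
  have e1 := interp_zero m u hinj (oddQ p m) (oddQ_degree_lt p m)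
  have e2 := interp_zero m u hinj (oddQ (chebC m) m) (oddQ_degree_lt _ m)
  rw [oddQ_eval_zero] at e1 e2
  rw [chebC_coeff_one] at e2
  set v : ℕ → ℝ := fun k => (p.eval (nodeT m k) - p.eval (-(nodeT m k))) / 2 with hv
  have hvabs : ∀ k, |v k| ≤ 1 := by
    intro k
    have hk1 : nodeT m k ∈ Set.Icc (-1:ℝ) 1 := ⟨Real.neg_one_le_sin _, Real.sin_le_one _⟩
    have hk2 : -(nodeT m k) ∈ Set.Icc (-1:ℝ) 1 :=
      ⟨by linarith [Real.sin_le_one ((2 * k + 1) * Real.pi / (2 * (2 * m + 1))), hk1.2],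
        by linarith [hk1.1]⟩
    have a1 := abs_le.mp (hb _ hk1)
    have a2 := abs_le.mp (hb _ hk2)
    rw [abs_le]
    constructor <;> simp only [hv] <;> linarith [a1.1, a1.2, a2.1, a2.2]
  have q1 : ∀ k ≤ m, (oddQ p m).eval (u k) = v k / nodeT m k := by
    intro k hk
    have := oddQ_eval_sq p m hp (nodeT m k)
    rw [eq_div_iff (ne_of_gt (nodeT_pos m k hk)), mul_comm]
    exact this
  have q2 : ∀ k ≤ m, (oddQ (chebC m) m).eval (u k) = (-1) ^ k / nodeT m k := by
    intro k hk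
    have := oddQ_eval_sq (chebC m) m (chebC_natDegree m) (nodeT m k)
    rw [chebC_eval_neg, chebC_eval_node m k hk] at this
    rw [eq_div_iff (ne_of_gt (nodeT_pos m k hk)), mul_comm, this]
    ring
  have key : (2 * (m:ℝ) + 1) - p.coeff 1
      = ∑ k ∈ range (m + 1), ((-1) ^ k * W k) * ((1 - (-1) ^ k * v k) / nodeT m k) := by
    rw [e1, e2, ← Finset.sum_sub_distrib]
    refine Finset.sum_congr rfl (fun k hk => ?_)
    have hk' : k ≤ m := by have := Finset.mem_range.mp hk; omega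
    rw [q1 k hk', q2 k hk']
    have h5 : ((-1:ℝ)) ^ k * (-1) ^ k = 1 := by rw [← mul_pow]; simp
    have : (-1:ℝ) ^ k * W k * ((1 - (-1) ^ k * v k) / nodeT m k)
        = ((-1:ℝ) ^ k * W k - ((-1:ℝ) ^ k * (-1) ^ k) * W k * v k) / nodeT m k := by ring
    rw [this, h5]
    ring
  have hterm : ∀ k ∈ range (m + 1),
      0 ≤ ((-1) ^ k * W k) * ((1 - (-1) ^ k * v k) / nodeT m k) := by
    intro k hk
    have hk' : k ≤ m := by have := Finset.mem_range.mp hk; omega
    have h1 := weight_sign m u hpos hmono k hk'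
    have h2 : (-1:ℝ) ^ k * v k ≤ 1 := by
      apply le_of_abs_le
      rw [abs_mul, abs_neg_one_pow, one_mul]
      exact hvabs k
    exact mul_nonneg h1.le (div_nonneg (by linarith) (nodeT_pos m k hk').le)
  have h0 := Finset.single_le_sum hterm (Finset.mem_range.mpr (Nat.succ_pos m))
  rw [← key] at h0
  simp only [pow_zero, one_mul] at h0
  have hW0 : 1 ≤ W 0 := weight_zero_ge m u hpos hmono
  have hv0 : 0 ≤ (1 - v 0) / nodeT m 0 :=
    div_nonneg (by linarith [(abs_le.mp (hvabs 0)).2]) (nodeT_pos m 0 (Nat.zero_le m)).le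
  have : (1 - v 0) / nodeT m 0 ≤ W 0 * ((1 - v 0) / nodeT m 0) := by nlinarith
  linarith

end Vale.Agent.Lib.P047
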