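import Mathlib
import Vale.Agent.Lib.P047.Conical

open Finset BigOperators

namespace Vale.Agent.Lib.P047.TwoSided

open Vale.Agent.Lib.P047.Conical

/-- sign of the coordinate `k` in the subcube `x = 1` on `P`, `x = -1` on `N` -/
noncomputable def eps {n : ℕ} (P N : Finset (Fin n)) (k : Fin n) : ℝ :=
  (if k ∈ P then 1 else 0) - (if k ∈ N then 1 else 0)

lemma unit_sq (u : ℤˣ) : ((u : ℤ) : ℝ) * ((u : ℤ) : ℝ) = 1 := by
  rcases Int.units_eq_one_or u with h | h <;> subst h <;> norm_num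

lemma avg_ind {n : ℕ} (P N : Finset (Fin n)) (hPN : Disjoint P N) :
    (∑ x : Fin n → ℤˣ, (if ((∀ i ∈ P, x i = 1) ∧ (∀ i ∈ N, x i = -1)) then (1 : ℝ) else 0)) / 2 ^ n
    = (1/2 : ℝ) ^ (P.card + N.card) := by
  have h := avg_ind_bias P N hPN 0
  simp only [zero_mul, add_zero, Finset.prod_const_one, mul_one, sub_zero] at h
  rw [h, pow_add]

lemma avg_ind_two {n : ℕ} (P N : Finset (Fin n)) (hPN : Disjoint P N) (k l : Fin n) (hkl : k ≠ l) :
    (∑ x : Fin n → ℤˣ, (if ((∀ i ∈ P, x i = 1) ∧ (∀ i ∈ N, x i = -1)) then (1 : ℝ) else 0)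
      * (((x k : ℤ) : ℝ) * ((x l : ℤ) : ℝ))) / 2 ^ n
    = (eps P N k * eps P N l) * (1/2 : ℝ) ^ (P.card + N.card) := by
  have h := avg_ind_mul P N (fun i s => (if i = k then ((s : ℤ) : ℝ) else 1)
    * (if i = l then ((s : ℤ) : ℝ) else 1))
  have e1 : ∀ x : Fin n → ℤˣ, ∏ i, ((if i = k then ((x i : ℤ) : ℝ) else 1)
      * (if i = l then ((x i : ℤ) : ℝ) else 1)) = ((x k : ℤ) : ℝ) * ((x l : ℤ) : ℝ) := by
    intro x
    rw [Finset.prod_mul_distrib, Finset.prod_ite_eq' Finset.univ k (fun i => ((x i : ℤ) : ℝ)),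
      Finset.prod_ite_eq' Finset.univ l (fun i => ((x i : ℤ) : ℝ))]
    simp
  simp only [e1] at h
  rw [h]
  have e2 : ∀ i : Fin n, (((if i ∈ N then 0 else 1) * ((if i = k then (((1:ℤˣ) : ℤ) : ℝ) else 1)
        * (if i = l then (((1:ℤˣ) : ℤ) : ℝ) else 1))
      + (if i ∈ P then 0 else 1) * ((if i = k then (((-1:ℤˣ) : ℤ) : ℝ) else 1)
        * (if i = l then (((-1:ℤˣ) : ℤ) : ℝ) else 1))) / 2 : ℝ)
      = ((if i ∈ P then (1/2:ℝ) else 1) * (if i ∈ N then (1/2:ℝ) else 1)) *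
        ((if i = k then eps P N k else 1) * (if i = l then eps P N l else 1)) := by
    intro i
    have hdis : i ∈ P → i ∉ N := fun h1 h2 => (Finset.disjoint_left.1 hPN) h1 h2
    unfold eps
    by_cases hik : i = k
    · subst hik
      by_cases hP : i ∈ P
      · have hN := hdis hP
        simp [hP, hN, hkl]
      · by_cases hN : i ∈ N
        · simp [hP, hN, hkl]; norm_num
        · simp [hP, hN, hkl]
    · by_cases hil : i = l
      · subst hil
        by_cases hP : i ∈ P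
        · have hN := hdis hP
          simp [hP, hN, hik]
        · by_cases hN : i ∈ N
          · simp [hP, hN, hik]; norm_num
          · simp [hP, hN, hik]
      · by_cases hP : i ∈ P
        · have hN := hdis hP
          simp [hP, hN, hik, hil]
        · by_cases hN : i ∈ N <;> simp [hP, hN, hik, hil]
  rw [Finset.prod_congr rfl (fun i _ => e2 i), Finset.prod_mul_distrib, Finset.prod_mul_distrib,
    Finset.prod_mul_distrib, prod_ite_const, prod_ite_const, Finset.prod_ite_eq' Finset.univ k,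
    Finset.prod_ite_eq' Finset.univ l]
  simp only [Finset.mem_univ, if_true]
  rw [pow_add]
  ring

lemma avg_ind_pair {n : ℕ} (P N : Finset (Fin n)) (hPN : Disjoint P N) (k l : Fin n) :
    (∑ x : Fin n → ℤˣ, (if ((∀ i ∈ P, x i = 1) ∧ (∀ i ∈ N, x i = -1)) then (1 : ℝ) else 0)
      * (((x k : ℤ) : ℝ) * ((x l : ℤ) : ℝ))) / 2 ^ n
    = (if k = l then 1 else eps P N k * eps P N l) * (1/2 : ℝ) ^ (P.card + N.card) := by
  by_cases hkl : k = l
  · subst hkl
    simp only [unit_sq, mul_one, if_true, one_mul]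
    exact avg_ind P N hPN
  · rw [if_neg hkl]
    exact avg_ind_two P N hPN k l hkl

lemma sum_eps {n : ℕ} (P N : Finset (Fin n)) :
    ∑ k, eps P N k = (P.card : ℝ) - N.card := by
  unfold eps
  rw [Finset.sum_sub_distrib]
  simp

lemma sum_eps_sq {n : ℕ} (P N : Finset (Fin n)) (hPN : Disjoint P N) :
    ∑ k, eps P N k * eps P N k = (P.card : ℝ) + N.card := by
  have : ∀ k, eps P N k * eps P N k = (if k ∈ P then 1 else 0) + (if k ∈ N then 1 else 0) := by
    intro k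
    have hdis : k ∈ P → k ∉ N := fun h1 h2 => (Finset.disjoint_left.1 hPN) h1 h2
    unfold eps
    by_cases hP : k ∈ P
    · have hN := hdis hP
      simp [hP, hN]
    · by_cases hN : k ∈ N <;> simp [hP, hN]
  simp_rw [this]
  rw [Finset.sum_add_distrib]
  simp

lemma sum_pair {n : ℕ} (P N : Finset (Fin n)) (hPN : Disjoint P N) :
    ∑ k : Fin n, ∑ l : Fin n, (if k = l then (1:ℝ) else eps P N k * eps P N l)
    = ((P.card : ℝ) - N.card) ^ 2 + n - ((P.card : ℝ) + N.card) := by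
  have h1 : ∀ k l : Fin n, (if k = l then (1:ℝ) else eps P N k * eps P N l)
      = eps P N k * eps P N l + (if k = l then (1 - eps P N k * eps P N k) else 0) := by
    intro k l
    by_cases h : k = l
    · subst h; simp
    · simp [h]
  simp_rw [h1, Finset.sum_add_distrib]
  have h2 : ∑ k : Fin n, ∑ l : Fin n, eps P N k * eps P N l = ((P.card : ℝ) - N.card) ^ 2 := by
    simp_rw [← Finset.mul_sum]
    rw [← Finset.sum_mul, sum_eps]
    ring
  have h3 : ∑ k : Fin n, ∑ l : Fin n, (if k = l then (1 - eps P N k * eps P N k) else 0)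
      = (n : ℝ) - ((P.card : ℝ) + N.card) := by
    simp only [Finset.sum_ite_eq, Finset.mem_univ, if_true]
    rw [Finset.sum_sub_distrib, sum_eps_sq P N hPN]
    simp
  rw [h2, h3]
  ring

/-- expansion of an average through a representation by subcube indicators -/
lemma expand {n : ℕ} (h : (Fin n → ℤˣ) → ℝ)
    {ι : Type} [Fintype ι] (P N : ι → Finset (Fin n)) (a : ι → ℝ)
    (hrep : ∀ x, h x =
        ∑ j, a j * (if ((∀ i ∈ P j, x i = 1) ∧ (∀ i ∈ N j, x i = -1)) then (1:ℝ) else 0))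
    (g : (Fin n → ℤˣ) → ℝ) :
    (∑ x, h x * g x) / 2 ^ n
    = ∑ j, a j * ((∑ x, (if ((∀ i ∈ P j, x i = 1) ∧ (∀ i ∈ N j, x i = -1)) then (1:ℝ) else 0)
        * g x) / 2 ^ n) := by
  simp_rw [hrep, Finset.sum_mul, mul_div_assoc', Finset.mul_sum]
  rw [Finset.sum_comm, Finset.sum_div]
  apply Finset.sum_congr rfl
  intro j _
  congr 1
  apply Finset.sum_congr rfl
  intro x _
  ring

section main

variable (n : ℕ) (f : (Fin n → ℤˣ) → ℤˣ)
    (ι : Type) [Fintype ι] (P N : ι → Finset (Fin n)) (w : ι → ℝ) (b : ι → ℤˣ)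

include n in
lemma total_mass
    (hPN : ∀ j, Disjoint (P j) (N j))
    (hone : ∀ x : Fin n → ℤˣ,
      ∑ j, w j * (if ((∀ i ∈ P j, x i = 1) ∧ (∀ i ∈ N j, x i = -1)) then (1:ℝ) else 0) = 1) :
    ∑ j, w j * (1/2 : ℝ) ^ ((P j).card + (N j).card) = 1 := by
  have h := expand (fun _ => (1:ℝ)) P N w (fun x => (hone x).symm) (fun _ => 1)
  simp only [mul_one] at h
  have h0 : (∑ _x : Fin n → ℤˣ, (1:ℝ)) / 2 ^ n = 1 := by
    simp
  rw [h0] at h
  refine Eq.trans ?_ h.symm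
  apply Finset.sum_congr rfl
  intro j _
  rw [avg_ind (P j) (N j) (hPN j)]

lemma second_moment
    (hPN : ∀ j, Disjoint (P j) (N j))
    (hone : ∀ x : Fin n → ℤˣ,
      ∑ j, w j * (if ((∀ i ∈ P j, x i = 1) ∧ (∀ i ∈ N j, x i = -1)) then (1:ℝ) else 0) = 1) :
    ∑ j, w j * (1/2 : ℝ) ^ ((P j).card + (N j).card) * (((P j).card : ℝ) - (N j).card) ^ 2
    = ∑ j, w j * (1/2 : ℝ) ^ ((P j).card + (N j).card) * (((P j).card : ℝ) + (N j).card) := by
  have hm := total_mass n ι P N w hPN hone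
  -- pair averages, in two ways
  have h1 : ∀ k l : Fin n, (if k = l then (1:ℝ) else 0)
      = ∑ j, w j * ((if k = l then 1 else eps (P j) (N j) k * eps (P j) (N j) l)
          * (1/2 : ℝ) ^ ((P j).card + (N j).card)) := by
    intro k l
    have h := expand (fun _ => (1:ℝ)) P N w (fun x => (hone x).symm)
      (fun x => ((x k : ℤ) : ℝ) * ((x l : ℤ) : ℝ))
    simp only [one_mul] at h
    have h0 := avg_ind_pair (∅ : Finset (Fin n)) ∅ (by simp) k l
    have h0' : (∑ x : Fin n → ℤˣ, ((x k : ℤ) : ℝ) * ((x l : ℤ) : ℝ)) / 2 ^ n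
        = (if k = l then (1:ℝ) else 0) := by
      simpa [eps] using h0
    rw [← h0', h]
    apply Finset.sum_congr rfl
    intro j _
    rw [avg_ind_pair (P j) (N j) (hPN j) k l]
  have h2 : ∑ k : Fin n, ∑ l : Fin n, (if k = l then (1:ℝ) else 0) = n := by
    simp
  have h3 : ∑ k : Fin n, ∑ l : Fin n, ∑ j, w j * ((if k = l then 1 else
        eps (P j) (N j) k * eps (P j) (N j) l) * (1/2 : ℝ) ^ ((P j).card + (N j).card))
      = ∑ j, w j * (1/2 : ℝ) ^ ((P j).card + (N j).card) *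
          ((((P j).card : ℝ) - (N j).card) ^ 2 + n - (((P j).card : ℝ) + (N j).card)) := by
    have : ∀ k : Fin n, ∑ l : Fin n, ∑ j, w j * ((if k = l then 1 else
        eps (P j) (N j) k * eps (P j) (N j) l) * (1/2 : ℝ) ^ ((P j).card + (N j).card))
        = ∑ j, ∑ l : Fin n, w j * ((if k = l then 1 else
        eps (P j) (N j) k * eps (P j) (N j) l) * (1/2 : ℝ) ^ ((P j).card + (N j).card)) :=
      fun k => Finset.sum_comm
    simp_rw [this]
    rw [Finset.sum_comm]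
    apply Finset.sum_congr rfl
    intro j _
    rw [← sum_pair (P j) (N j) (hPN j), Finset.mul_sum]
    apply Finset.sum_congr rfl
    intro k _
    rw [Finset.mul_sum]
    apply Finset.sum_congr rfl
    intro l _
    ring
  have h4 : (n : ℝ) = ∑ j, w j * (1/2 : ℝ) ^ ((P j).card + (N j).card) *
          ((((P j).card : ℝ) - (N j).card) ^ 2 + n - (((P j).card : ℝ) + (N j).card)) := by
    rw [← h3, ← h2]
    apply Finset.sum_congr rfl
    intro k _
    apply Finset.sum_congr rfl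
    intro l _
    exact h1 k l
  have h5 : ∑ j, w j * (1/2 : ℝ) ^ ((P j).card + (N j).card) *
          ((((P j).card : ℝ) - (N j).card) ^ 2 + n - (((P j).card : ℝ) + (N j).card))
      = ∑ j, w j * (1/2 : ℝ) ^ ((P j).card + (N j).card) * (((P j).card : ℝ) - (N j).card) ^ 2
        + n * ∑ j, w j * (1/2 : ℝ) ^ ((P j).card + (N j).card)
        - ∑ j, w j * (1/2 : ℝ) ^ ((P j).card + (N j).card) * (((P j).card : ℝ) + (N j).card) := by
    rw [Finset.mul_sum, ← Finset.sum_add_distrib, ← Finset.sum_sub_distrib]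
    apply Finset.sum_congr rfl
    intro j _
    ring
  rw [h5, hm] at h4
  linarith

lemma level_one
    (hw : ∀ j, 0 ≤ w j)
    (hPN : ∀ j, Disjoint (P j) (N j))
    (hone : ∀ x : Fin n → ℤˣ,
      ∑ j, w j * (if ((∀ i ∈ P j, x i = 1) ∧ (∀ i ∈ N j, x i = -1)) then (1:ℝ) else 0) = 1)
    (hval : ∀ j, 0 < w j → ∀ x : Fin n → ℤˣ,
      ((∀ i ∈ P j, x i = 1) ∧ (∀ i ∈ N j, x i = -1)) → f x = b j) :
    ∑ i, (∑ x, ((f x : ℤ) : ℝ) * ((x i : ℤ) : ℝ)) / 2 ^ n
    = ∑ j, w j * (1/2 : ℝ) ^ ((P j).card + (N j).card) *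
        (((b j : ℤ) : ℝ) * (((P j).card : ℝ) - (N j).card)) := by
  have hrep : ∀ x, ((f x : ℤ) : ℝ) = ∑ j, (w j * ((b j : ℤ) : ℝ)) *
      (if ((∀ i ∈ P j, x i = 1) ∧ (∀ i ∈ N j, x i = -1)) then (1:ℝ) else 0) := by
    intro x
    have h1 : ∀ j, (w j * ((b j : ℤ) : ℝ)) *
        (if ((∀ i ∈ P j, x i = 1) ∧ (∀ i ∈ N j, x i = -1)) then (1:ℝ) else 0)
        = ((f x : ℤ) : ℝ) * (w j *
        (if ((∀ i ∈ P j, x i = 1) ∧ (∀ i ∈ N j, x i = -1)) then (1:ℝ) else 0)) := by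
      intro j
      by_cases hc : ((∀ i ∈ P j, x i = 1) ∧ (∀ i ∈ N j, x i = -1))
      · rcases (hw j).lt_or_eq with hpos | hz
        · rw [hval j hpos x hc]; ring
        · rw [← hz]; ring
      · rw [if_neg hc]; ring
    rw [Finset.sum_congr rfl (fun j _ => h1 j), ← Finset.mul_sum, hone x, mul_one]
  have h1 : ∀ i : Fin n, (∑ x, ((f x : ℤ) : ℝ) * ((x i : ℤ) : ℝ)) / 2 ^ n
      = ∑ j, (w j * ((b j : ℤ) : ℝ)) * (eps (P j) (N j) i
          * (1/2 : ℝ) ^ ((P j).card + (N j).card)) := by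
    intro i
    rw [expand (fun x => ((f x : ℤ) : ℝ)) P N (fun j => w j * ((b j : ℤ) : ℝ)) hrep]
    apply Finset.sum_congr rfl
    intro j _
    rw [avg_ind_coord (P j) (N j) (hPN j) i]
    rfl
  simp_rw [h1]
  rw [Finset.sum_comm]
  apply Finset.sum_congr rfl
  intro j _
  rw [← Finset.mul_sum, ← Finset.sum_mul, sum_eps]
  ring

end main

lemma sum_shift_sq {ι : Type} [Fintype ι] (a y : ι → ℝ) (m : ℝ) :
    ∑ j, a j * (y j - m) ^ 2
      = ∑ j, a j * (y j) ^ 2 - 2 * m * ∑ j, a j * y j + m ^ 2 * ∑ j, a j := by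
  rw [Finset.mul_sum, Finset.mul_sum, ← Finset.sum_sub_distrib, ← Finset.sum_add_distrib]
  apply Finset.sum_congr rfl
  intro j _
  ring

lemma jensen_sq {ι : Type} [Fintype ι] (a y : ι → ℝ) (ha : ∀ j, 0 ≤ a j) (h1 : ∑ j, a j = 1) :
    (∑ j, a j * y j) ^ 2 ≤ ∑ j, a j * (y j) ^ 2 := by
  have h0 : 0 ≤ ∑ j, a j * (y j - ∑ j, a j * y j) ^ 2 :=
    Finset.sum_nonneg (fun j _ => mul_nonneg (ha j) (sq_nonneg _))
  rw [sum_shift_sq, h1] at h0
  nlinarith

/-
FROZEN STATEMENT (owner helper18).  Fractional subcube partitions.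

Data: subcubes C_j = {x : x = 1 on P j, x = -1 on N j}, weights w j >= 0 with
sum_j w j * 1_{C_j}(x) = 1 for every x, and f is constant (= b j) on every C_j with w j > 0.
Claim: (sum_i fhat(i))^2 <= sum_j w j * c_j / 2^(c_j),  c_j = |P j| + |N j|  (average codimension).

ROUTE.  Put mu_j = 1/2^(c_j), e_j = |P j| - |N j|, eps_i(j) = 1 on P j, -1 on N j, 0 otherwise.
(a) Conical.avg_ind_coord gives  avg(1_{C} * x_k) = mu * eps_k ;  the same proof (Conical.avg_ind_mul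
    with psi_i(s) = s for i in {k,l}, 1 otherwise) gives  avg(1_C * x_k * x_l) = mu * eps_k * eps_l for
    k != l, and avg(1_C) = mu (Conical.avg_ind_bias with e = 0).
(b) f(x) = sum_j w j * b j * 1_{C_j}(x)   (from hone and hval; terms with w j = 0 vanish).
(c) L := sum_i fhat(i) = sum_j w j * mu_j * b j * e_j.
(d) 1 = sum_j w j * mu_j     (average hone).
(e) for k != l : 0 = avg(x_k x_l) = sum_j w j mu_j eps_k(j) eps_l(j); summing over k != l and adding the
    diagonal:  sum_j w j mu_j e_j^2 = sum_j w j mu_j c_j.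
(f) Cauchy-Schwarz with weights w j mu_j >= 0:  L^2 <= (sum w mu)(sum w mu e^2) = sum w mu c.
-/
theorem two_sided (n : ℕ) (f : (Fin n → ℤˣ) → ℤˣ)
    (ι : Type) [Fintype ι] (P N : ι → Finset (Fin n)) (w : ι → ℝ) (b : ι → ℤˣ)
    (hw : ∀ j, 0 ≤ w j)
    (hPN : ∀ j, Disjoint (P j) (N j))
    (hone : ∀ x : Fin n → ℤˣ,
      ∑ j, w j * (if ((∀ i ∈ P j, x i = 1) ∧ (∀ i ∈ N j, x i = -1)) then (1:ℝ) else 0) = 1)
    (hval : ∀ j, 0 < w j → ∀ x : Fin n → ℤˣ,
      ((∀ i ∈ P j, x i = 1) ∧ (∀ i ∈ N j, x i = -1)) → f x = b j) :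
    (∑ i, (∑ x, ((f x : ℤ) : ℝ) * ((x i : ℤ) : ℝ)) / 2 ^ n) ^ 2
      ≤ ∑ j, w j * (((P j).card + (N j).card : ℕ) : ℝ) / 2 ^ ((P j).card + (N j).card) := by
  rw [level_one n f ι P N w b hw hPN hone hval]
  have hm := total_mass n ι P N w hPN hone
  have hs := second_moment n ι P N w hPN hone
  have hj := jensen_sq (fun j => w j * (1/2 : ℝ) ^ ((P j).card + (N j).card))
    (fun j => ((b j : ℤ) : ℝ) * (((P j).card : ℝ) - (N j).card))
    (fun j => mul_nonneg (hw j) (by positivity)) hm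
  refine le_trans hj (le_of_eq ?_)
  have h1 : ∀ j, w j * (1/2 : ℝ) ^ ((P j).card + (N j).card) *
      (((b j : ℤ) : ℝ) * (((P j).card : ℝ) - (N j).card)) ^ 2
      = w j * (1/2 : ℝ) ^ ((P j).card + (N j).card) * (((P j).card : ℝ) - (N j).card) ^ 2 := by
    intro j
    have := unit_sq (b j)
    rw [mul_pow, sq (((b j : ℤ) : ℝ)), this, one_mul]
  rw [Finset.sum_congr rfl (fun j _ => h1 j), hs]
  apply Finset.sum_congr rfl
  intro j _
  rw [one_div, inv_pow]
  push_cast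
  field_simp

/-- consequence: if all subcubes have codimension at most `d`, the level-one sum is at most `√d` -/
theorem two_sided_sqrt (n d : ℕ) (f : (Fin n → ℤˣ) → ℤˣ)
    (ι : Type) [Fintype ι] (P N : ι → Finset (Fin n)) (w : ι → ℝ) (b : ι → ℤˣ)
    (hw : ∀ j, 0 ≤ w j)
    (hPN : ∀ j, Disjoint (P j) (N j))
    (hwidth : ∀ j, (P j).card + (N j).card ≤ d)
    (hone : ∀ x : Fin n → ℤˣ,
      ∑ j, w j * (if ((∀ i ∈ P j, x i = 1) ∧ (∀ i ∈ N j, x i = -1)) then (1:ℝ) else 0) = 1)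
    (hval : ∀ j, 0 < w j → ∀ x : Fin n → ℤˣ,
      ((∀ i ∈ P j, x i = 1) ∧ (∀ i ∈ N j, x i = -1)) → f x = b j) :
    ∑ i, (∑ x, ((f x : ℤ) : ℝ) * ((x i : ℤ) : ℝ)) / 2 ^ n ≤ Real.sqrt d := by
  have h := two_sided n f ι P N w b hw hPN hone hval
  have hm := total_mass n ι P N w hPN hone
  have h2 : ∑ j, w j * (((P j).card + (N j).card : ℕ) : ℝ) / 2 ^ ((P j).card + (N j).card)
      ≤ (d : ℝ) := by
    calc ∑ j, w j * (((P j).card + (N j).card : ℕ) : ℝ) / 2 ^ ((P j).card + (N j).card)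
        ≤ ∑ j, (d : ℝ) * (w j * (1/2 : ℝ) ^ ((P j).card + (N j).card)) := by
          apply Finset.sum_le_sum
          intro j _
          have hc : (((P j).card + (N j).card : ℕ) : ℝ) ≤ d := by exact_mod_cast hwidth j
          have hp : (0:ℝ) ≤ w j * (1/2 : ℝ) ^ ((P j).card + (N j).card) :=
            mul_nonneg (hw j) (by positivity)
          have e : w j * (((P j).card + (N j).card : ℕ) : ℝ) / 2 ^ ((P j).card + (N j).card)
              = (((P j).card + (N j).card : ℕ) : ℝ)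
                * (w j * (1/2 : ℝ) ^ ((P j).card + (N j).card)) := by
            rw [one_div, inv_pow]
            field_simp
          rw [e]
          exact mul_le_mul_of_nonneg_right hc hp
      _ = d := by rw [← Finset.mul_sum, hm, mul_one]
  exact le_trans (le_abs_self _) (Real.abs_le_sqrt (le_trans h h2))

end Vale.Agent.Lib.P047.TwoSided
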