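import Vale.Agent.Lib.P047.Biased
import Vale.Agent.Lib.P047.Envelope
import Vale.Agent.Lib.P047.Interp

/-!
# P047: the level-one sum of a Boolean function of degree `d` is at most `(43/44) d`
-/

namespace Vale.Agent.Lib.P047

open Finset Biased

variable {ι : Type} [Fintype ι] [DecidableEq ι]

/-- the odd part of the mean at `τ` stays away from one -/
lemma odd_part_le (d : ℕ) (φ : (ι → ℤˣ) → ℝ) (hφ : ∀ x, φ x = 1 ∨ φ x = -1)
    (hdeg : ∀ S : Finset ι, d < S.card → fcoef φ S = 0) (τ : ℝ) (h0 : 0 ≤ τ) (h1 : τ < 1) :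
    ((meanPoly φ).eval τ - (meanPoly φ).eval (-τ)) / 2
      ≤ 1 - 2 / (((1 + τ) / (1 - τ)) ^ d + 1) := by
  by_cases hnc : (∃ a, φ a = 1) ∧ (∃ b, φ b = -1)
  · obtain ⟨⟨a, ha⟩, ⟨b, hb⟩⟩ := hnc
    refine envelope (fun t => (meanPoly φ).eval t)
      (fun t => (Polynomial.derivative (meanPoly φ)).eval t) d ?_ ?_ ?_ τ h0 h1
    · intro t _
      exact Polynomial.hasDerivAt _ _
    · intro t ht
      exact abs_meanPoly_lt (abs_lt.mpr ⟨ht.1, ht.2⟩) φ hφ a b ha hb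
    · intro t ht
      exact diff_ineq (by nlinarith [ht.1, ht.2]) d φ hφ hdeg
  · have hconst : ∃ c : ℝ, ∀ x, φ x = c := by
      by_cases h : ∃ a, φ a = 1
      · refine ⟨1, fun x => ?_⟩
        rcases hφ x with hx | hx
        · exact hx
        · exact absurd ⟨h, ⟨x, hx⟩⟩ hnc
      · refine ⟨-1, fun x => ?_⟩
        rcases hφ x with hx | hx
        · exact absurd ⟨x, hx⟩ h
        · exact hx
    obtain ⟨c, hc⟩ := hconst
    have he : ∀ t, (meanPoly φ).eval t = c := by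
      intro t
      rw [meanPoly_eval']
      simp only [hc]
      rw [← Finset.sum_mul, sum_wt, one_mul]
    rw [he, he, sub_self, zero_div]
    have ha1 : 1 ≤ ((1 + τ) / (1 - τ)) ^ d := by
      apply one_le_pow₀
      rw [one_le_div (by linarith)]
      linarith
    have : 2 / (((1 + τ) / (1 - τ)) ^ d + 1) ≤ 1 := by
      rw [div_le_one (by linarith)]
      linarith
    linarith

/-- explicit form of the bound -/
theorem level_one_le_explicit (d m : ℕ) (hdm : d ≤ 2 * m + 2) (hm : 1 ≤ m)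
    (φ : (ι → ℤˣ) → ℝ) (hφ : ∀ x, φ x = 1 ∨ φ x = -1)
    (hdeg : ∀ S : Finset ι, d < S.card → fcoef φ S = 0) :
    ∑ i, fcoef φ {i} ≤ (2 * m + 1) -
      (2 / (((1 + nodeT m 0) / (1 - nodeT m 0)) ^ d + 1)) / nodeT m 0 := by
  have hb : ∀ x ∈ Set.Icc (-1:ℝ) 1, |(meanPoly φ).eval x| ≤ 1 := by
    intro x hx
    exact abs_meanPoly_le (abs_le.mpr ⟨hx.1, hx.2⟩) φ hφ
  have h1 := coeff_one_le m (meanPoly φ) (le_trans (meanPoly_natDegree φ d hdeg) hdm) hb
  rw [meanPoly_coeff_one] at h1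
  have hpos := nodeT_pos m 0 (Nat.zero_le m)
  have hlt : nodeT m 0 < 1 := lt_of_lt_of_le (nodeT_lt m 0 1 (by norm_num) hm) (nodeT_le_one m 1)
  have h2 := odd_part_le d φ hφ hdeg (nodeT m 0) hpos.le hlt
  have h3 : (2 / (((1 + nodeT m 0) / (1 - nodeT m 0)) ^ d + 1)) / nodeT m 0
      ≤ (1 - ((meanPoly φ).eval (nodeT m 0) - (meanPoly φ).eval (-(nodeT m 0))) / 2)
        / nodeT m 0 := by
    apply div_le_div_of_nonneg_right _ hpos.le
    linarith
  linarith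

/-- the plain Bernstein bound: the level-one sum is at most the largest odd number `≤ d` -/
theorem level_one_le_odd (d m : ℕ) (hdm : d ≤ 2 * m + 2)
    (φ : (ι → ℤˣ) → ℝ) (hφ : ∀ x, φ x = 1 ∨ φ x = -1)
    (hdeg : ∀ S : Finset ι, d < S.card → fcoef φ S = 0) :
    ∑ i, fcoef φ {i} ≤ 2 * m + 1 := by
  have hb : ∀ x ∈ Set.Icc (-1:ℝ) 1, |(meanPoly φ).eval x| ≤ 1 := by
    intro x hx
    exact abs_meanPoly_le (abs_le.mpr ⟨hx.1, hx.2⟩) φ hφ
  have h1 := coeff_one_le m (meanPoly φ) (le_trans (meanPoly_natDegree φ d hdeg) hdm) hb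
  rw [meanPoly_coeff_one] at h1
  have hpos := nodeT_pos m 0 (Nat.zero_le m)
  have hk1 : nodeT m 0 ∈ Set.Icc (-1:ℝ) 1 := ⟨by linarith, nodeT_le_one m 0⟩
  have hk2 : -(nodeT m 0) ∈ Set.Icc (-1:ℝ) 1 := ⟨by linarith [hk1.2], by linarith⟩
  have a1 := abs_le.mp (hb _ hk1)
  have a2 := abs_le.mp (hb _ hk2)
  have : 0 ≤ (1 - ((meanPoly φ).eval (nodeT m 0) - (meanPoly φ).eval (-(nodeT m 0))) / 2)
      / nodeT m 0 := div_nonneg (by linarith [a1.2, a2.1]) hpos.le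
  linarith

lemma exp_four_lt : Real.exp 4 < 54.6 := by
  have h := Real.exp_one_lt_d9
  have h2 : Real.exp 4 = Real.exp 1 ^ 4 := by
    rw [← Real.exp_nat_mul]; norm_num
  rw [h2]
  calc Real.exp 1 ^ 4 < 2.7182818286 ^ 4 := by
        apply pow_lt_pow_left₀ h (Real.exp_pos 1).le (by norm_num)
    _ < 54.6 := by norm_num

lemma ratio_pow_le (d : ℕ) (τ : ℝ) (h0 : 0 < τ) (h1 : τ ≤ 0.315) (h2 : d * τ ≤ 1.61) :
    ((1 + τ) / (1 - τ)) ^ d ≤ 54.6 := by
  have hp : 0 < 1 - τ := by linarith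
  have e1 : 1 + τ ≤ Real.exp τ := by linarith [Real.add_one_le_exp τ]
  have e2 : 1 / (1 - τ) ≤ Real.exp (τ / (1 - τ)) := by
    have := Real.add_one_le_exp (τ / (1 - τ))
    have h3 : τ / (1 - τ) + 1 = 1 / (1 - τ) := by field_simp; ring
    linarith
  have e3 : (1 + τ) / (1 - τ) ≤ Real.exp (τ + τ / (1 - τ)) := by
    rw [Real.exp_add, div_eq_mul_one_div]
    exact mul_le_mul e1 e2 (by positivity) (Real.exp_pos _).le
  have e4 : ((1 + τ) / (1 - τ)) ^ d ≤ Real.exp (d * (τ + τ / (1 - τ))) := by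
    rw [Real.exp_nat_mul]
    exact pow_le_pow_left₀ (by positivity) e3 d
  have e5 : (d:ℝ) * (τ + τ / (1 - τ)) ≤ 4 := by
    have h4 : τ / (1 - τ) ≤ τ / 0.685 := by
      apply div_le_div_of_nonneg_left h0.le (by norm_num) (by linarith)
    have h5 : (d:ℝ) * (τ + τ / (1 - τ)) ≤ d * (τ + τ / 0.685) :=
      mul_le_mul_of_nonneg_left (by linarith) (Nat.cast_nonneg d)
    have h6 : (d:ℝ) * (τ + τ / 0.685) = (d * τ) * (1 + 1 / 0.685) := by ring
    have h7 : (d * τ) * (1 + 1 / 0.685) ≤ 1.61 * (1 + 1 / 0.685) :=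
      mul_le_mul_of_nonneg_right h2 (by norm_num)
    have h8 : (1.61:ℝ) * (1 + 1 / 0.685) ≤ 4 := by norm_num
    linarith
  calc ((1 + τ) / (1 - τ)) ^ d ≤ Real.exp (d * (τ + τ / (1 - τ))) := e4
    _ ≤ Real.exp 4 := Real.exp_le_exp.mpr e5
    _ ≤ 54.6 := exp_four_lt.le

lemma nodeT_zero_le (m : ℕ) : nodeT m 0 ≤ 1.575 / (2 * m + 1) := by
  unfold nodeT
  have hpi := Real.pi_lt_d2
  have hpos := Real.pi_pos
  have h1 : (2 * ((0:ℕ):ℝ) + 1) * Real.pi / (2 * (2 * m + 1)) = Real.pi / (2 * (2 * m + 1)) := by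
    simp
  rw [h1]
  refine le_trans (Real.sin_le (by positivity)) ?_
  rw [div_le_div_iff₀ (by positivity) (by positivity)]
  nlinarith

/-- general estimate -/
theorem level_one_le_general (d m : ℕ) (hdm : d ≤ 2 * m + 2) (hm : 2 ≤ m)
    (hd : (d:ℝ) * 1.575 ≤ 1.61 * (2 * m + 1))
    (φ : (ι → ℤˣ) → ℝ) (hφ : ∀ x, φ x = 1 ∨ φ x = -1)
    (hdeg : ∀ S : Finset ι, d < S.card → fcoef φ S = 0) :
    ∑ i, fcoef φ {i} ≤ (43 / 44) * (2 * m + 1) := by
  have h1 := level_one_le_explicit d m hdm (by omega) φ hφ hdeg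
  set τ := nodeT m 0 with hτ
  have hpos : 0 < τ := nodeT_pos m 0 (Nat.zero_le m)
  have hle := nodeT_zero_le m
  rw [← hτ] at hle
  have hm' : (2:ℝ) ≤ m := by exact_mod_cast hm
  have hD : (0:ℝ) < 2 * m + 1 := by positivity
  have t1 : τ ≤ 0.315 := by
    refine le_trans hle ?_
    rw [div_le_iff₀ hD]
    nlinarith
  have t2 : (d:ℝ) * τ ≤ 1.61 := by
    have : (d:ℝ) * τ ≤ d * (1.575 / (2 * m + 1)) :=
      mul_le_mul_of_nonneg_left hle (Nat.cast_nonneg d)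
    refine le_trans this ?_
    rw [← mul_div_assoc, div_le_iff₀ hD]
    exact hd
  have ha := ratio_pow_le d τ hpos t1 t2
  have ha0 : 0 < ((1 + τ) / (1 - τ)) ^ d := by
    have : 0 < 1 - τ := by linarith
    positivity
  have h2 : 2 / 55.6 ≤ 2 / (((1 + τ) / (1 - τ)) ^ d + 1) := by
    apply div_le_div_of_nonneg_left (by norm_num) (by linarith) (by linarith)
  have h3 : (2 * (m:ℝ) + 1) / 44 ≤ (2 / (((1 + τ) / (1 - τ)) ^ d + 1)) / τ := by
    rw [le_div_iff₀ hpos]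
    have h4 : (2 * (m:ℝ) + 1) / 44 * τ ≤ (2 * (m:ℝ) + 1) / 44 * (1.575 / (2 * m + 1)) :=
      mul_le_mul_of_nonneg_left hle (by positivity)
    have h5 : (2 * (m:ℝ) + 1) / 44 * (1.575 / (2 * m + 1)) = 1.575 / 44 := by
      field_simp
    have h6 : (1.575:ℝ) / 44 ≤ 2 / 55.6 := by norm_num
    linarith
  linarith

lemma nodeT_one_zero : nodeT 1 0 = 1 / 2 := by
  unfold nodeT
  have : (2 * ((0:ℕ):ℝ) + 1) * Real.pi / (2 * (2 * ((1:ℕ):ℝ) + 1)) = Real.pi / 6 := by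
    push_cast
    ring
  rw [this, Real.sin_pi_div_six]

/-- **Main theorem**: for `d ≥ 2` the level-one sum is at most `(43/44) d`. -/
theorem level_one_le (d : ℕ) (hd : 2 ≤ d)
    (φ : (ι → ℤˣ) → ℝ) (hφ : ∀ x, φ x = 1 ∨ φ x = -1)
    (hdeg : ∀ S : Finset ι, d < S.card → fcoef φ S = 0) :
    ∑ i, fcoef φ {i} ≤ (43 / 44) * d := by
  rcases Nat.even_or_odd' d with ⟨k, hk | hk⟩
  · -- d = 2 k, m = k - 1
    obtain ⟨m, rfl⟩ : ∃ m, k = m + 1 := ⟨k - 1, by omega⟩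
    have hdm : d ≤ 2 * m + 2 := by omega
    have hdr : (d:ℝ) = 2 * m + 2 := by rw [hk]; push_cast; ring
    by_cases hsmall : d ≤ 44
    · have h1 := level_one_le_odd d m hdm φ hφ hdeg
      have h2 : (d:ℝ) ≤ 44 := by exact_mod_cast hsmall
      linarith
    · have hm : 22 ≤ m := by omega
      have hm' : (22:ℝ) ≤ m := by exact_mod_cast hm
      have h1 := level_one_le_general d m hdm (by omega) (by rw [hdr]; linarith) φ hφ hdeg
      linarith
  · -- d = 2 k + 1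
    have hdr : (d:ℝ) = 2 * k + 1 := by rw [hk]; push_cast; ring
    by_cases hk1 : k = 1
    · subst hk1
      have h1 := level_one_le_explicit d 1 (by omega) le_rfl φ hφ hdeg
      rw [nodeT_one_zero, hk] at h1
      rw [hdr]
      norm_num at h1 ⊢
      linarith
    · have hk2 : 2 ≤ k := by omega
      have h1 := level_one_le_general d k (by omega) hk2 (by rw [hdr]; nlinarith) φ hφ hdeg
      rw [hdr]
      exact h1

lemma sg_mul' (u v : ℤˣ) : sg (u * v) = sg u * sg v := by simp [sg]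

lemma fcoef_twist (φ : (ι → ℤˣ) → ℝ) (ε : ι → ℤˣ) (S : Finset ι) :
    fcoef (fun x => φ (ε * x)) S = (∏ i ∈ S, sg (ε i)) * fcoef φ S := by
  unfold fcoef
  rw [← mul_div_assoc]
  congr 1
  rw [← Equiv.sum_comp (Equiv.mulLeft ε), Finset.mul_sum]
  refine Finset.sum_congr rfl fun y _ => ?_
  have h1 : ε * (Equiv.mulLeft ε) y = y := by
    funext i
    simp [← mul_assoc, Int.units_mul_self]
  beta_reduce
  rw [h1]
  have h2 : ∏ i ∈ S, sg ((Equiv.mulLeft ε) y i) = (∏ i ∈ S, sg (ε i)) * ∏ i ∈ S, sg (y i) := by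
    rw [← Finset.prod_mul_distrib]
    refine Finset.prod_congr rfl fun i _ => ?_
    simp [sg_mul']
  rw [h2]
  ring

/-- the same bound for the sum of absolute values -/
theorem level_one_abs_le (d : ℕ) (hd : 2 ≤ d)
    (φ : (ι → ℤˣ) → ℝ) (hφ : ∀ x, φ x = 1 ∨ φ x = -1)
    (hdeg : ∀ S : Finset ι, d < S.card → fcoef φ S = 0) :
    ∑ i, |fcoef φ {i}| ≤ (43 / 44) * d := by
  set ε : ι → ℤˣ := fun i => if 0 ≤ fcoef φ {i} then 1 else -1 with hε
  have h1 := level_one_le d hd (fun x => φ (ε * x)) (fun x => hφ _) (by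
    intro S hS
    rw [fcoef_twist, hdeg S hS, mul_zero])
  refine le_trans (le_of_eq ?_) h1
  refine Finset.sum_congr rfl fun i _ => ?_
  rw [fcoef_twist, Finset.prod_singleton]
  simp only [hε]
  split_ifs with h
  · rw [abs_of_nonneg h]; simp
  · rw [abs_of_neg (not_le.mp h)]; simp

end Vale.Agent.Lib.P047
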